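import Vale.Agent.P287Q.G.Gen.Num
import Vale.Agent.P269.Gen.Act
import Vale.Agent.P269.Holo.Set
import Vale.Agent.P287Q.G.Vir.CI

/-!
# Targets and complete intersections satisfy the standing hypotheses
-/

set_option linter.unusedSectionVars false

namespace Vale.Agent.P269

open P291Z Set Function Topology Filter MvPolynomial Fock

variable {S Λ R J K : Type} [Fintype S] [Fintype Λ] [Fintype R] [Fintype J] [Fintype K]

namespace Fam

variable [DecidableEq R] {F : Fam S Λ R J K}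

theorem Good.exists_big (h : F.Good) : ∃ k, F.Big k := by
  obtain ⟨θ, N, hN⟩ := h.ample
  exact ⟨_, θ, N, hN, le_rfl⟩

theorem Big.mono {k k' : ℕ} (h : F.Big k) (hk : k ≤ k') : F.Big k' := by
  obtain ⟨θ, N, hN, h⟩ := h
  exact ⟨θ, N, hN, h.trans hk⟩

omit [DecidableEq R] in
/-- A single parameter value. -/
theorem cp_of_subsingleton (h : F.B.Subsingleton) : F.Cp := by
  have := h.coe_sort
  have : Finite (F.Bs F.B) := Finite.of_surjective _ Quot.mk_surjective
  infer_instance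

omit [DecidableEq R] in
theorem cp_empty (F : Fam S Empty R J K) : F.Cp := cp_of_subsingleton fun _ _ _ _ =>
  Subsingleton.elim _ _

omit [DecidableEq R] in
theorem dvs_subset (F : Fam S Λ R J K) (δ : J → ℕ) : F.dvs δ ⊆ F.cone := fun _ h => h.1

theorem Tg.zer {F : Fam Empty Empty R J K} (h : F.Tg) : F.zer = ∅ := by
  have := h.zer_base
  rwa [h.mov, disjoint_univ] at this

theorem Tg.nice {F : Fam Empty Empty R J K} (h : F.Tg) : F.Nice 0 where
  toGood := h.toGood
  reg := h.reg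
  sm := ⟨_, fun l => ((Holo.MfdAt.univ l.1).congr (.of_forall fun _ => by simp [h.B])).isMfd l.2⟩
  pol := ⟨∅, by simp, by simp [h.E]⟩
  sh := ⟨0, Fin.elim0, fun _ => 0, fun _ _ => 1, fun i => i.elim0, linearIndependent_empty_type,
    fun _ i => i.elim0, by simp [h.mov], fun _ _ _ => ⟨analyticAt_const, one_ne_zero⟩,
    by simp [h.mov], by simp [h.mov], by simp [h.mov, h.E], fun _ _ => rfl⟩

theorem Tg.B_eq {F : Fam Empty Empty R J K} (h : F.Tg) : F.B = {0} := by
  rw [h.B]
  exact (eq_univ_of_forall fun _ => Subsingleton.elim _ _).symm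

end Fam

/-- The rows of a matrix are independent if and only if it defines a surjective map. -/
theorem li_iff_surj (A : K → J → ℂ) :
    LinearIndependent ℂ A ↔ ∀ c : K → ℂ, ∃ η : J → ℂ, ∀ k, ∑ j, A k j * η j = c k := by
  classical
  refine ⟨fun h c => ?_, fun h => Fintype.linearIndependent_iff.2 fun a ha k => ?_⟩
  · have h1 : (Matrix.of A).rank = Fintype.card K := LinearIndependent.rank_matrix h
    have h2 : LinearMap.range (Matrix.of A).mulVecLin = ⊤ :=
      Submodule.eq_top_of_finrank_eq (by rw [Module.finrank_fintype_fun_eq_card]; exact h1)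
    obtain ⟨η, hη⟩ := LinearMap.range_eq_top.1 h2 c
    exact ⟨η, congrFun hη⟩
  · obtain ⟨η, hη⟩ := h (Pi.single k 1)
    have h1 : ∑ q, a q * ∑ j, A q j * η j = ∑ j, (∑ q, a q • A q) j * η j := by
      simp only [Finset.mul_sum, Finset.sum_apply, Finset.sum_mul, Pi.smul_apply, smul_eq_mul,
        mul_assoc]
      exact Finset.sum_comm
    rw [ha] at h1
    simpa [hη, Pi.single_apply] using h1

section ci

variable {F : K → MvPolynomial J ℂ} {d : K → ℕ}

theorem map_eval_map_C (l : Empty → ℂ) (f : MvPolynomial J ℂ) :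
    MvPolynomial.map (eval l) (MvPolynomial.map C f) = f := by
  rw [MvPolynomial.map_map]
  exact (congrArg (MvPolynomial.map · f) (RingHom.ext fun _ => eval_C _)).trans (MvPolynomial.map_id f)

theorem ciF_fib (l : Empty → ℂ) (k : K) : ((ciF F d).fib l).F k = F k := map_eval_map_C l _

theorem mem_ciK {x : J → ℂ} : x ∈ (ciK F).cone ↔ x ≠ 0 ∧ ∀ k, eval x (F k) = 0 := Iff.rfl

theorem mem_ciF {z : (Empty → ℂ) × (J → ℂ)} : z ∈ (ciF F d).cone ↔ z.2 ∈ (ciK F).cone :=
  ⟨fun h => ⟨h.2.1.1, fun k => by rw [← h.2.2 k, ciF_fib]; rfl⟩,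
    fun h => ⟨trivial, ⟨h.1, trivial, fun _ h => h.elim⟩, fun k => by rw [ciF_fib]; exact h.2 k⟩⟩

theorem ciF_act (t : (Empty → ℂ) × (Unit → ℂ)) (z : (Empty → ℂ) × (J → ℂ)) :
    ((ciF F d).actT t z).2 = t.2 () • z.2 := funext fun j => by
  simp [Wt.actT, ciF, ciK, Tgt.fam]

theorem ciF_inv (h : ∀ k, (F k).IsHomogeneous (d k)) : (ciF F d).Inv where
  hom k α hα _ := by
    have h1 : α ∈ (F k).support := support_map_subset _ _ hα
    have h2 := h k (mem_support_iff.1 h1)
    rw [Finsupp.weight_apply, Finsupp.sum_fintype _ _ (by simp)] at h2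
    change ∑ j, (α j : ℤ) * 1 = (d k : ℤ)
    simpa using congrArg (Nat.cast : ℕ → ℤ) h2
  homS _ _ _ _ _ i := i.elim
  openU := isOpen_compl_singleton.preimage continuous_snd
  invU t ht z hz := by
    change ((ciF F d).actT t z).2 ≠ 0
    rw [ciF_act]
    exact smul_ne_zero (isUnit_pi_iff.1 (Prod.isUnit_iff.1 ht).2 _) hz
  closedE := isClosed_univ
  invE _ _ _ _ := trivial
  baseE _ _ _ _ _ := trivial
  zer_base := empty_disjoint _
  lcB := isClosed_univ.isLocallyClosed
  invB _ _ _ _ := trivial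

theorem ciF_ample : (ciF F d).Ample 1 1 := by
  classical
  refine ⟨rfl, one_pos, fun c hc z hz => ?_⟩
  obtain ⟨j, hj⟩ := Function.ne_iff.1 (mem_ciF.1 hz).1
  have h0 : 0 ≤ c () := by
    rcases hc with rfl | ⟨_, rfl | rfl⟩ <;> simp
  refine ⟨Pi.single j (c ()).toNat, fun _ => ?_, ?_⟩
  · change ∑ j', ((Pi.single j (c ()).toNat : J → ℕ) j' : ℤ) * 1 = c ()
    rw [Finset.sum_eq_single j (fun _ _ h => by simp [h]) (by simp)]
    simpa using h0
  · exact Finset.prod_ne_zero_iff.2 fun j' _ => by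
      by_cases e : j' = j
      · exact pow_ne_zero _ (e ▸ hj)
      · simp [e]

theorem ciF_big {k : ℕ} (hk : 30 ≤ k) : (ciF F d).Big k := ⟨1, 1, ciF_ample, hk⟩

theorem SmCI.good [Nonempty J] (h : SmCI F d) : (ciF F d).Good where
  toInv := ciF_inv h.hom
  deg k := by
    change (MvPolynomial.map C (F k)).totalDegree ≠ 0
    rw [totalDegree, support_map_of_injective _ (C_injective _ _), ← totalDegree,
      (h.hom k).totalDegree (h.ne k)]
    exact Nat.one_le_iff_ne_zero.1 (h.pos k)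
  freeB _ _ _ _ _ := Subsingleton.elim _ _
  properB _ _ _ _ _ _ _ _ _ _ := ⟨0, fun _ i => i.elim⟩
  free t _ z hz e := by
    have h1 := congrArg Prod.snd e
    rw [ciF_act] at h1
    have h2 : (t () - 1) • z.2 = 0 := by rw [sub_smul, one_smul]; exact sub_eq_zero.2 h1
    exact funext fun _ => sub_eq_zero.1 ((smul_eq_zero.1 h2).resolve_right (mem_ciF.1 hz).1)
  proper t z z' _ hz hz' y hy H := by
    have H' : Tendsto (fun n => t n () • y n) atTop (𝓝 z'.2) :=
      tendsto_pi_nhds.2 fun j => (H j fun _ => zero_le_one).congr fun n => by rw [ciF_act]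
    have h0 : ‖z.2‖ ≠ 0 := norm_ne_zero_iff.2 (mem_ciF.1 hz).1
    have h0' : ‖z'.2‖ ≠ 0 := norm_ne_zero_iff.2 (mem_ciF.1 hz').1
    have h1 : Tendsto (fun n => ‖t n ()‖) atTop (𝓝 (‖z'.2‖ / ‖z.2‖)) :=
      (H'.norm.div hy.norm h0).congr' ((hy.norm.eventually_ne h0).mono fun n hn => by
        simp only [Pi.div_apply, norm_smul]
        rw [mul_div_cancel_right₀ _ hn])
    have h2 := h1.inv₀ (div_ne_zero h0' h0)
    refine ⟨max (‖z'.2‖ / ‖z.2‖ + 1) ((‖z'.2‖ / ‖z.2‖)⁻¹ + 1), ?_⟩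
    filter_upwards [h1.eventually_le_const (lt_add_one _), h2.eventually_le_const (lt_add_one _)]
      with n a b _
    exact ⟨le_max_of_le_left a, le_max_of_le_right (by rwa [norm_inv])⟩
  cpt _ _ _ := by
    refine ⟨{z | ‖z.2‖ = 1 ∧ ∀ k, eval z.2 (F k) = 0}, fun z hz => mem_ciF.2
      ⟨norm_ne_zero_iff.1 (by rw [hz.1]; exact one_ne_zero), hz.2⟩, ?_, fun z hz _ => ?_⟩
    · refine ((isCompact_univ (X := Empty → ℂ)).prod (isCompact_sphere 0 1)).of_isClosed_subset
        ((isClosed_eq continuous_snd.norm continuous_const).inter ?_) fun z hz =>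
          ⟨trivial, mem_sphere_zero_iff_norm.2 hz.1⟩
      change IsClosed {z : (Empty → ℂ) × (J → ℂ) | ∀ k, eval z.2 (F k) = 0}
      rw [ofPred_forall]
      exact isClosed_iInter fun k =>
        isClosed_eq ((continuous_eval (F k)).comp continuous_snd) continuous_const
    · have h0 : ‖z.2‖ ≠ 0 := norm_ne_zero_iff.2 (mem_ciF.1 hz).1
      have hu : IsUnit fun _ : Unit => ((‖z.2‖⁻¹ : ℝ) : ℂ) :=
        isUnit_pi_iff.2 fun _ => by simpa using h0
      refine ⟨_, hu, ?_, (mem_ciF.1 ((ciF_inv h.hom).cone_act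
        (Prod.isUnit_iff.2 ⟨isUnit_one, hu⟩) hz)).2⟩
      rw [ciF_act, norm_smul]
      simp [inv_mul_cancel₀ h0]
  ample := ⟨1, 1, ciF_ample⟩
  mov_ne := univ_nonempty

theorem SmCI.ci (h : SmCI F d) : (ciF F d).CI := Fam.ci_of fun z hz c => by
  obtain ⟨η, hη⟩ := (li_iff_surj _).1 (h.li _ (mem_ciF.1 hz)) c
  exact ⟨η, fun _ h => (h trivial).elim, fun k => by rw [← hη k]; simp only [Fam.jac, ciF_fib]⟩

theorem SmCI.tg [Nonempty J] (h : SmCI F d) : (ciF F d).Tg where
  toGood := h.good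
  reg := ⟨_, h.ci.reg h.good.toInv⟩
  mov := rfl
  B := rfl
  E := rfl

theorem SmCI.nice [Nonempty J] (h : SmCI F d) : (ciF F d).Nice 0 := h.tg.nice

end ci

end Vale.Agent.P269
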