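import Vale.Agent.P287Q.G.Asm.Quad

/-!
# The double point degeneration and the degeneration to the normal cone: definitions
-/

set_option linter.unusedSectionVars false

namespace Vale.Agent.P269

open P291Z Set Function Topology Filter MvPolynomial

/-- The character `p h + q η`. -/
def wv (p q : ℤ) : Option Unit → ℤ := fun o => o.elim q fun _ => p

/-- Equations `H` of degrees `d`, `G` of degree `a` and `F` of degree `a + 1`. -/
structure Flag (J K : Type) where
  /-- the equations of `W` -/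
  H : K → MvPolynomial J ℂ
  /-- their degrees -/
  d : K → ℕ
  /-- the degree of `G` -/
  a : ℕ
  /-- the equation of `D` in `W` -/
  G : MvPolynomial J ℂ
  /-- the equation of `Z` in `D` -/
  F : MvPolynomial J ℂ

namespace Flag

variable {J K : Type} [Fintype J] [Fintype K] (f : Flag J K)

/-- The equations of `D`. -/
def eD : Option K → MvPolynomial J ℂ := fun o => o.elim f.G f.H

/-- The degrees of `D` and of `Y₁`. -/
def dD : Option K → ℕ := fun o => o.elim f.a f.d

/-- The equations of `Z`. -/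
def eZ : Option (Option K) → MvPolynomial J ℂ := fun o => o.elim f.F f.eD

/-- The degrees of `Z`. -/
def dZ : Option (Option K) → ℕ := fun o => o.elim (f.a + 1) f.dD

/-- The equations of the cyclic cover `Y₁` of `W` branched along `D`. -/
noncomputable def eY : Option K → MvPolynomial (Option J) ℂ :=
  fun o => o.elim (X none ^ f.a + rename some f.G) fun k => rename some (f.H k)

/-- The equations of the member `t` of the double point degeneration. -/
noncomputable def eX (t : ℂ) : Option K → MvPolynomial (Option J) ℂ :=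
  fun o => o.elim (rename some f.F - X none * (C (t ^ f.a) * X none ^ f.a + rename some f.G))
    fun k => rename some (f.H k)

/-- The degrees of `X`. -/
def dX : Option K → ℕ := fun o => o.elim (f.a + 1) f.d

/-- `W ⊇ D ⊇ Z` are smooth complete intersections. -/
structure Ok : Prop where
  ne : Nonempty J
  W : SmCI f.H f.d
  D : SmCI f.eD f.dD
  Z : SmCI f.eZ f.dZ

/-- `W`. -/
noncomputable abbrev tW : Fam Empty Empty Unit J K := ciF f.H f.d

/-- `D`. -/
noncomputable abbrev tD : Fam Empty Empty Unit J (Option K) := ciF f.eD f.dD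

/-- `Z`. -/
noncomputable abbrev tZ : Fam Empty Empty Unit J (Option (Option K)) := ciF f.eZ f.dZ

/-- `Y₁`. -/
noncomputable abbrev tY : Fam Empty Empty Unit (Option J) (Option K) := ciF f.eY f.dD

/-- `X`. -/
noncomputable abbrev tX (t : ℂ) : Fam Empty Empty Unit (Option J) (Option K) := ciF (f.eX t) f.dX

/-- The projectivised normal bundle of `Z` in `W`. -/
noncomputable abbrev tE (θ : Option Unit → ℤ) :
    Fam Empty Empty (Option Unit) (J ⊕ Fin 2) (Option (Option K)) :=
  f.tZ.proj ![fun _ => f.a + 1, fun _ => f.a] θ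

/-- The projective completion of the normal bundle of `Z` in `W`. -/
noncomputable abbrev tQ (θ : Option Unit → ℤ) :
    Fam Empty Empty (Option Unit) (J ⊕ Fin 3) (Option (Option K)) :=
  f.tZ.proj ![fun _ => f.a + 1, fun _ => f.a, 0] θ

/-- The polarisation of the blow-up. -/
def θB : Option Unit → ℤ := wv (6 * f.a + 7) (6 * f.a + 4)

/-- The blow-up of `W` along `Z`: fields `x, u, v, e` with `F = u e`, `G = v e`; the characters are
written in the basis `h - E`, `E`. -/
noncomputable def blT : Tgt (Option Unit) (J ⊕ Fin 3) (K ⊕ Bool) where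
  w := Sum.elim (fun _ => wv 1 1) ![wv (f.a + 1) f.a, wv f.a (f.a - 1), wv 0 1]
  U := {y | y ∘ .inl ≠ 0 ∧ (y (.inr 0) ≠ 0 ∨ y (.inr 1) ≠ 0)}
  F := Sum.elim (fun k => rename .inl (f.H k)) fun o => cond o
    (rename .inl f.G - X (.inr 1) * X (.inr 2)) (rename .inl f.F - X (.inr 0) * X (.inr 2))
  θ := 3 • f.θB

/-- The blow-up as a family. -/
noncomputable def tB : Fam Empty Empty (Option Unit) (J ⊕ Fin 3) (K ⊕ Bool) :=
  f.blT.fam (Sum.elim (fun k => wv (f.d k) (f.d k))
    fun o => cond o (wv f.a f.a) (wv (f.a + 1) (f.a + 1)))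

/-- The grading of the curve classes of the blow-up. -/
def gB : Deg.Grd (Option Unit → ℤ) where
  deg := ⟨⟨fun d => ∑ r, f.θB r * d r, by simp⟩, fun _ _ => by simp [mul_add, add_add_add_comm]⟩
  ξ := 0

/-- **The double point degeneration**: fields `x, y₀, z, z', e`. -/
noncomputable def pD (Ω : Set ℂ) : Pre (Option Unit) (J ⊕ Fin 4) (K ⊕ Bool) where
  w := Sum.elim (fun _ => wv 1 0) ![wv 1 1, wv 0 1, wv 0 (-1), wv f.a (-1)]
  U := {y | y ∘ .inl ≠ 0 ∧ (y (.inr 0) ≠ 0 ∨ y (.inr 1) ≠ 0)}
  F := Sum.elim (fun k => rename .inl (f.H k)) fun o => cond o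
    ((X (.inr 2) * X (.inr 0)) ^ f.a + rename .inl f.G - X (.inr 1) * X (.inr 3))
    (rename .inl f.F - X (.inr 0) * X (.inr 3))
  θ := wv (3 * f.a + 7) 2
  χ := Sum.elim (fun k => wv (f.d k) 0) fun o => cond o (wv f.a 0) (wv (f.a + 1) 0)
  η := none
  z := .inr 1
  z' := .inr 2
  β := 1
  N := 3
  Ω := Ω

/-- **The degeneration to the normal cone of `Z`**: fields `x, u, v, z, z'`. -/
noncomputable def pE : Pre (Option Unit) (J ⊕ Fin 4) (K ⊕ Bool) where
  w := Sum.elim (fun _ => wv 1 0) ![wv (f.a + 1) 1, wv f.a 1, wv 0 1, wv 0 (-1)]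
  U := {y | y ∘ .inl ≠ 0 ∧ (y (.inr 0) ≠ 0 ∨ y (.inr 1) ≠ 0 ∨ y (.inr 2) ≠ 0)}
  F := Sum.elim (fun k => rename .inl (f.H k)) fun o => cond o
    (rename .inl f.G - X (.inr 3) * X (.inr 1)) (rename .inl f.F - X (.inr 3) * X (.inr 0))
  θ := wv (6 * f.a + 7) 4
  χ := Sum.elim (fun k => wv (f.d k) 0) fun o => cond o (wv f.a 0) (wv (f.a + 1) 0)
  η := none
  z := .inr 2
  z' := .inr 3
  β := 2
  N := 3
  Ω := univ

/-- `X` in the double point degeneration -/
noncomputable def σX (t : ℂ) : J ⊕ Fin 4 → MvPolynomial (Option J) ℂ :=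
  Sum.elim (X ∘ some) ![X none, 1, C t, C (t ^ f.a) * X none ^ f.a + rename some f.G]

/-- `Y₁` in the double point degeneration -/
noncomputable def σY : J ⊕ Fin 4 → MvPolynomial (Option J) ℂ :=
  Sum.elim (X ∘ some) ![1, 0, X none, rename some f.F]

/-- the retraction to `Y₁` -/
noncomputable def rY : Option J → MvPolynomial (J ⊕ Fin 4) ℂ :=
  fun o => o.elim (X (.inr 2) * X (.inr 0)) (X ∘ .inl)

/-- `D` in the double point degeneration -/
noncomputable def σD : J ⊕ Fin 4 → MvPolynomial J ℂ := Sum.elim X ![1, 0, 0, f.F]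

/-- the blow-up in both degenerations -/
noncomputable def σB : J ⊕ Fin 4 → MvPolynomial (J ⊕ Fin 3) ℂ :=
  Sum.elim (X ∘ .inl) ![X (.inr 0), X (.inr 1), 0, X (.inr 2)]

/-- the fields of the blow-up in both degenerations -/
def φB : J ⊕ Fin 3 → J ⊕ Fin 4 := Sum.map id ![0, 1, 3]

/-- the lattice of the blow-up in the double point degeneration -/
def mB : Option Unit → Option Unit → ℤ := fun o => o.elim (wv f.a (f.a - 1)) fun _ => wv 1 1

/-- the lattice of the blow-up in the degeneration to the normal cone -/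
def mB' : Option Unit → Option Unit → ℤ := fun o => o.elim (wv 0 (-1)) fun _ => wv 1 1

/-- `W` in the degeneration to the normal cone -/
noncomputable def σW (t : ℂ) : J ⊕ Fin 4 → MvPolynomial J ℂ :=
  Sum.elim X ![C t⁻¹ * f.F, C t⁻¹ * f.G, 1, C t]

/-- `Q` in the degeneration to the normal cone -/
noncomputable def σQ : J ⊕ Fin 4 → MvPolynomial (J ⊕ Fin 3) ℂ :=
  Sum.elim (X ∘ .inl) ![X (.inr 0), X (.inr 1), X (.inr 2), 0]

/-- `E` in the degeneration to the normal cone -/
noncomputable def σE : J ⊕ Fin 4 → MvPolynomial (J ⊕ Fin 2) ℂ :=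
  Sum.elim (X ∘ .inl) ![X (.inr 0), X (.inr 1), 0, 0]

end Flag

/-- The character of the anticanonical bundle. -/
noncomputable def Fam.κ₁ {S Λ R J K : Type} [Fintype J] [Fintype K] (F : Fam S Λ R J K) : R → ℤ :=
  ∑ j, F.w j - ∑ k, F.χ k

/-- The polynomials `r` define a map from `A` to `T` which is inverse to `σ`. -/
structure Pre.Ret {R J K R₀ J₀ K₀ : Type} [Fintype R] [Fintype J] [Fintype K] [Fintype R₀]
    [Fintype J₀] [Fintype K₀] (P : Pre R J K) (A : Set (J → ℂ)) (T : Fam Empty Empty R₀ J₀ K₀)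
    (σ : J → MvPolynomial J₀ ℂ) (M' : R₀ → R → ℤ) (r : J₀ → MvPolynomial J ℂ) : Prop where
  hom : ∀ j₀, ∀ α ∈ (r j₀).support, ∀ i, ∑ j, α j * P.w j i = ∑ i₀, T.w j₀ i₀ * M' i₀ i
  maps : ∀ y ∈ A, (Empty.elim, fun j₀ => eval y (r j₀)) ∈ T.cone
  inv : ∀ j₀, aeval σ (r j₀) = X j₀

end Vale.Agent.P269
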