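import Vale.Agent.P287Q.G.Asm.Quad
import Vale.Agent.P269.Gen.Act
import Vale.Agent.P287Q.G.Bas.DegN
import Vale.Agent.P287Q.G.Vir.CI

/-!
# Graph fields
-/

set_option linter.unusedSectionVars false

namespace Vale.Agent.P269

open P291Z Set Function Topology Filter MvPolynomial

variable {S Λ Λ₀ R R₀ J J₀ K K₀ I : Type} [Fintype S] [Fintype Λ] [Fintype Λ₀] [Fintype R]
  [Fintype R₀] [Fintype J] [Fintype J₀] [Fintype K] [Fintype K₀] [Fintype I] [DecidableEq R]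

theorem Wt.mon_act (F : Wt S Λ R J) {t : R → ℂ} (ht : IsUnit t) (z : (Λ → ℂ) × (J → ℂ))
    {α : J → ℕ} {c : R → ℤ} (h : ∀ i, ∑ j, α j * F.w j i = c i) :
    ∏ j, (F.actT (1, t) z).2 j ^ α j = (∏ i, t i ^ c i) * ∏ j, z.2 j ^ α j := by
  simp only [Wt.actT, Pi.one_apply, one_zpow, Finset.prod_const_one, one_mul, mul_pow,
    Finset.prod_mul_distrib, prod_pow_zpow (isUnit_pi_iff.1 ht), h]

theorem chr_gc {t : R → ℂ} (ht : IsUnit t) (θ : R → ℤ) (N : ℕ) (i : R) :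
    ∏ r, t r ^ gc θ N (some i) r = (∏ r, t r ^ gc θ N none r) * t i := by
  simp only [gc, Option.elim, Pi.add_apply, Pi.zero_apply, add_zero,
    zpow_add₀ (isUnit_pi_iff.1 ht _), Finset.prod_mul_distrib]
  rw [Finset.prod_eq_single i (f := fun r => t r ^ (Pi.single i 1 : R → ℤ) r)
    (fun _ _ h => by simp [h]) (by simp)]
  simp

theorem gc_nonneg {θ : R → ℤ} (h : 0 ≤ θ) (N : ℕ) (o : Option R) : 0 ≤ gc θ N o :=
  add_nonneg (nsmul_nonneg h N) (by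
    cases o with
    | none => exact le_rfl
    | some i => exact Pi.single_nonneg.2 zero_le_one)

theorem GI.supp {w : J → R → ℤ} {θ : R → ℤ} {N : ℕ} (p : GI w θ N) (j : J) (h : p.α j ≠ 0) :
    j ∈ p.1.1.1 := p.1.2.choose_spec.1 j h

theorem GI.wt {w : J → R → ℤ} {θ : R → ℤ} {N : ℕ} (p : GI w θ N) (i : R) :
    ∑ j, p.α j * w j i = p.c i := p.1.2.choose_spec.2 i

theorem sum_mapDomain_inl (α : J →₀ ℕ) (f : J ⊕ I → ℤ) :
    ∑ j, α.mapDomain Sum.inl j * f j = ∑ j, α j * f (.inl j) := by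
  rw [Fintype.sum_sum_type]
  simp [Finsupp.mapDomain_apply Sum.inl_injective, Finsupp.mapDomain_of_notMem_range]

theorem sum_single_one [DecidableEq J] (a : J) (f : J → ℤ) :
    ∑ j, (Finsupp.single a 1 : J →₀ ℕ) j * f j = f a := by
  rw [Finset.sum_eq_single a (fun _ _ h => by simp [h]) (by simp)]
  simp

theorem single_ne_mapDomain (α : J →₀ ℕ) (i : I) :
    α.mapDomain Sum.inl ≠ Finsupp.single (Sum.inr i : J ⊕ I) 1 := fun e => by
  have := DFunLike.congr_fun e (.inr i)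
  simp [Finsupp.mapDomain_of_notMem_range] at this

theorem sum_pderiv_rename (g : MvPolynomial J ℂ) (y η : J ⊕ I → ℂ) :
    ∑ j, eval y (pderiv j (rename Sum.inl g)) * η j =
      ∑ j, eval (y ∘ .inl) (pderiv j g) * η (.inl j) :=
  (Vir.hasDerivAt_eval _ y η).unique ((Vir.hasDerivAt_eval g _ (η ∘ .inl)).congr_of_eventuallyEq
    (.of_forall fun _ => eval_rename _ _ _))

namespace Fam

/-- `Good` without the conditions that follow from ampleness. -/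
structure Weak (F : Fam S Λ R J K) : Prop extends F.Inv where
  deg : ∀ k, (F.G k).totalDegree ≠ 0
  freeB : ∀ τ, IsUnit τ → ∀ l ∈ F.B, F.actL τ l = l → τ = 1
  properB : ∀ (τ : ℕ → S → ℂ) (l : ℕ → Λ → ℂ) l₀ l₁, (∀ n, IsUnit (τ n)) → (∀ n, l n ∈ F.B) →
    l₀ ∈ F.B → l₁ ∈ F.B → Tendsto l atTop (𝓝 l₀) → Tendsto (fun n => F.actL (τ n) (l n)) atTop (𝓝 l₁) →
    ∃ C : ℝ, ∀ n i, ‖τ n i‖ ≤ C ∧ ‖(τ n i)⁻¹‖ ≤ C
  cpt : ∀ B' ⊆ F.B, IsCompact B' → ∃ C ⊆ F.cone, IsCompact C ∧ ∀ z ∈ F.cone, z.1 ∈ B' →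
    ∃ t : R → ℂ, IsUnit t ∧ F.actT (1, t) z ∈ C
  mov_ne : F.mov.Nonempty

/-- If the characters `N θ`, `N θ + e i` are generated by monomials in the fields of nonnegative
weight, the action is free and proper. -/
theorem Weak.good {F : Fam S Λ R J K} (h : F.Weak) {θ : R → ℤ} {N : ℕ} (ha : F.Ample θ N)
    (hp : ∀ o, ∀ z ∈ F.cone, ∃ α : J → ℕ, (∀ j, α j ≠ 0 → 0 ≤ F.w j) ∧
      (∀ i, ∑ j, α j * F.w j i = gc θ N o i) ∧ ∏ j, z.2 j ^ α j ≠ 0) : F.Good where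
  toInv := h.toInv
  deg := h.deg
  freeB := h.freeB
  properB := h.properB
  free t ht z hz e := funext fun i => by
    have a : ∀ o, ∏ r, t r ^ gc θ N o r = 1 := fun o => by
      obtain ⟨α, -, b, c⟩ := hp o z hz
      have := F.mon_act ht z b
      rw [e] at this
      exact mul_right_cancel₀ c (this.symm.trans (one_mul _).symm)
    have := chr_gc ht θ N i
    rw [a, a, one_mul] at this
    exact this.symm
  proper t z z' ht hz hz' y hy H := by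
    have m : ∀ α : J → ℕ, Tendsto (fun n => ∏ j, y n j ^ α j) atTop (𝓝 (∏ j, z.2 j ^ α j)) :=
      fun α => tendsto_finsetProd _ fun j _ => (tendsto_pi_nhds.1 hy j).pow _
    have m' : ∀ (o) (α : J → ℕ), (∀ j, α j ≠ 0 → 0 ≤ F.w j) →
        (∀ i, ∑ j, α j * F.w j i = gc θ N o i) → Tendsto
          (fun n => (∏ r, t n r ^ gc θ N o r) * ∏ j, y n j ^ α j) atTop (𝓝 (∏ j, z'.2 j ^ α j)) :=
      fun o α a b => (tendsto_finsetProd _ fun j _ => by
        by_cases e : α j = 0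
        · simp only [e, pow_zero]
          exact tendsto_const_nhds
        · exact (H j (a j e)).pow _).congr fun n => F.mon_act (ht n) (z.1, y n) b
    have a : ∀ o, ∃ L ≠ 0, Tendsto (fun n => ∏ r, t n r ^ gc θ N o r) atTop (𝓝 L) := fun o => by
      obtain ⟨α, a, b, c⟩ := hp o z hz
      obtain ⟨α', a', b', c'⟩ := hp o z' hz'
      have d := ((m' o α a b).div (m α) c).congr' (((m α).eventually_ne c).mono fun n e =>
        mul_div_cancel_right₀ _ e)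
      exact ⟨_, fun e => c' (by
        rw [tendsto_nhds_unique (m' o α' a' b') (d.mul (m α')), e, zero_mul]), d⟩
    choose L a b using a
    have c : ∀ i, Tendsto (fun n => t n i) atTop (𝓝 (L (some i) / L none)) := fun i =>
      ((b (some i)).div (b none) (a none)).congr fun n => by
        rw [Pi.div_apply, chr_gc (ht n),
          mul_div_cancel_left₀ _ (prod_zpow_ne (isUnit_pi_iff.1 (ht n)) _)]
    have c1 := (tendsto_pi_nhds.2 c).norm
    have c2 := (tendsto_pi_nhds.2 fun i => (c i).inv₀ (div_ne_zero (a _) (a _))).norm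
    refine ⟨_, ((c1.eventually_le_const (lt_add_one _)).and
      (c2.eventually_le_const (lt_add_one _))).mono fun n e i =>
        ⟨le_max_of_le_left ((norm_le_pi_norm _ i).trans e.1),
          le_max_of_le_right ((norm_le_pi_norm (fun i => (t n i)⁻¹) i).trans e.2)⟩⟩
  cpt := h.cpt
  ample := ⟨θ, N, ha⟩
  mov_ne := h.mov_ne

theorem Ample.gc {F : Fam S Λ R J K} {θ : R → ℤ} {N : ℕ} (ha : F.Ample θ N) (o : Option R)
    {z : (Λ → ℂ) × (J → ℂ)} (hz : z ∈ F.cone) :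
    ∃ α : J → ℕ, (∀ i, ∑ j, α j * F.w j i = gc θ N o i) ∧ ∏ j, z.2 j ^ α j ≠ 0 :=
  ha.2.2 _ (by
    cases o with
    | none => exact .inl (add_zero _)
    | some i => exact .inr ⟨i, .inl rfl⟩) z hz

theorem Weak.good' {F : Fam S Λ R J K} (h : F.Weak) {θ : R → ℤ} {N : ℕ} (ha : F.Ample θ N)
    (hp : ∀ j, 0 ≤ F.w j) : F.Good :=
  h.good ha fun o _ hz => (ha.gc o hz).imp fun _ a => ⟨fun j _ => hp j, a⟩

variable {F : Fam S Λ R J K} {θ : R → ℤ} {N : ℕ} {κ : GI F.w θ N → MvPolynomial Λ ℂ}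

theorem gr_fib_inl (l : Λ → ℂ) (k : K) :
    ((F.gr θ N κ).fib l).F (.inl k) = rename .inl ((F.fib l).F k) := map_rename _ _ _

theorem gr_fib_inr (l : Λ → ℂ) (p : GI F.w θ N) : ((F.gr θ N κ).fib l).F (.inr p) =
    X (.inr p) - rename .inl (monomial p.α (eval l (κ p))) := by
  rw [rename_monomial, ← map_monomial, ← map_X (eval l), ← map_sub]
  rfl

theorem gr_mem {B : Set (Λ → ℂ)} {Z : Set J} {Z' : Set (J ⊕ GI F.w θ N)} (hZ : Z' = Sum.inl '' Z)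
    {z : (Λ → ℂ) × (J ⊕ GI F.w θ N → ℂ)} :
    z ∈ ((F.gr θ N κ).sub B Z').cone ↔ (z.1, z.2 ∘ .inl) ∈ (F.sub B Z).cone ∧
      ∀ p, z.2 (.inr p) = eval z.1 (κ p) * ∏ j, z.2 (.inl j) ^ p.α j := by
  subst hZ
  have a : ∀ k, eval z.2 (((F.gr θ N κ).fib z.1).F (.inl k)) =
      eval (z.2 ∘ .inl) ((F.fib z.1).F k) := fun k => by rw [gr_fib_inl, eval_rename]
  have b : ∀ p, eval z.2 (((F.gr θ N κ).fib z.1).F (.inr p)) =
      z.2 (.inr p) - eval z.1 (κ p) * ∏ j, z.2 (.inl j) ^ p.α j := fun p => by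
    rw [gr_fib_inr, map_sub, eval_X, eval_rename, eval_monomial,
      Finsupp.prod_fintype _ _ fun _ => pow_zero _]
    rfl
  exact ⟨fun h => ⟨⟨h.1, ⟨h.2.1.1, h.2.1.2.1, fun j hj => h.2.1.2.2 _ ⟨j, hj, rfl⟩⟩,
      fun k => (a k).symm.trans (h.2.2 _)⟩, fun p => sub_eq_zero.1 ((b p).symm.trans (h.2.2 _))⟩,
    fun h => ⟨h.1.1, ⟨h.1.2.1.1, h.1.2.1.2.1, forall_mem_image.2 h.1.2.1.2.2⟩, Sum.rec
      (fun k => (a k).trans (h.1.2.2 k)) fun p => (b p).trans (sub_eq_zero.2 (h.2 p))⟩⟩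

theorem gr_mem' {z : (Λ → ℂ) × (J ⊕ GI F.w θ N → ℂ)} :
    z ∈ (F.gr θ N κ).cone ↔ (z.1, z.2 ∘ .inl) ∈ F.cone ∧
      ∀ p, z.2 (.inr p) = eval z.1 (κ p) * ∏ j, z.2 (.inl j) ^ p.α j :=
  gr_mem (B := F.B) (Z := F.zer) rfl

variable (κ) in
/-- The graph map. -/
noncomputable def grf (z : (Λ → ℂ) × (J → ℂ)) : (Λ → ℂ) × (J ⊕ GI F.w θ N → ℂ) :=
  (z.1, Sum.elim z.2 fun p => eval z.1 (κ p) * ∏ j, z.2 j ^ p.α j)

theorem continuous_grf : Continuous (grf κ) :=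
  continuous_fst.prodMk (continuous_pi (Sum.rec (fun j => (continuous_apply j).comp continuous_snd)
    fun p => ((continuous_eval (κ p)).comp continuous_fst).mul (continuous_finsetProd _ fun j _ =>
      ((continuous_apply j).comp continuous_snd).pow _)))

theorem grf_act {t : R → ℂ} (ht : IsUnit t) (z : (Λ → ℂ) × (J → ℂ)) :
    grf κ (F.actT (1, t) z) = (F.gr θ N κ).actT (1, t) (grf κ z) :=
  Prod.ext rfl (funext (Sum.rec (fun _ => rfl) fun p => by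
    refine (congrArg₂ (fun a b => eval a (κ p) * b) (F.actL_one z.1)
      (F.mon_act ht z p.wt)).trans ((mul_left_comm _ _ _).trans ?_)
    exact congrArg (· * _) ((one_mul _).symm.trans (congrArg (· * _) (by simp)))))

theorem gr_mem_grf {B : Set (Λ → ℂ)} {Z : Set J} {Z' : Set (J ⊕ GI F.w θ N)}
    (hZ : Z' = Sum.inl '' Z) {z : (Λ → ℂ) × (J ⊕ GI F.w θ N → ℂ)} :
    z ∈ ((F.gr θ N κ).sub B Z').cone ↔ ∃ u ∈ (F.sub B Z).cone, z = grf κ u :=
  (gr_mem hZ).trans ⟨fun h => ⟨_, h.1, Prod.ext rfl (funext (Sum.rec (fun _ => rfl) h.2))⟩,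
    fun ⟨_, a, b⟩ => b ▸ ⟨a, fun _ => rfl⟩⟩

theorem gr_ample (ha : F.Ample θ N) : (F.gr θ N κ).Ample θ N :=
  ⟨ha.1, ha.2.1, fun c hc z hz => by
    obtain ⟨α, a, b⟩ := ha.2.2 c hc _ (gr_mem'.1 hz).1
    refine ⟨Sum.elim α 0, fun i => ?_, ?_⟩
    · rw [Fintype.sum_sum_type, ← a]
      simp
    · rw [Fintype.prod_sum_type]
      simpa using b⟩

theorem inl_mem_gr {j : J} : Sum.inl j ∈ (F.gr θ N κ).mov ↔ j ∈ F.mov :=
  (not_congr Sum.inl_injective.mem_set_image).trans not_not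

theorem inr_mem_gr (p : GI F.w θ N) : Sum.inr p ∈ (F.gr θ N κ).mov := fun ⟨_, _, h⟩ => nomatch h

theorem gr_G_inr (p : GI F.w θ N) : (F.gr θ N κ).G (.inr p) =
    X (.inr p) - monomial (p.α.mapDomain .inl) (κ p) := rfl

theorem gr_coeff {p : GI F.w θ N} {α : J ⊕ GI F.w θ N →₀ ℕ} {β : Λ →₀ ℕ}
    (h : β ∈ (coeff α ((F.gr θ N κ).G (.inr p))).support) :
    α = Finsupp.single (.inr p) 1 ∧ β = 0 ∨ α = p.α.mapDomain .inl ∧ β ∈ (κ p).support := by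
  classical
  rw [gr_G_inr, coeff_sub, coeff_X, coeff_monomial] at h
  refine (Finset.mem_union.1 (support_sub _ _ _ h)).imp (fun a => ?_) fun a => ?_
  · split_ifs at a with e
    · exact ⟨e.symm, Finset.mem_singleton.1 (support_monomial_subset a)⟩
    · simp at a
  · split_ifs at a with e
    · exact ⟨e.symm, a⟩
    · simp at a

theorem gr_inv (h : F.Inv) (hκ : ∀ p, ∀ β ∈ (κ p).support, ∀ i,
    ∑ j, p.α j * F.wt j i + ∑ a, β a * F.wl a i = 0) : (F.gr θ N κ).Inv := by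
  classical
  have c : Continuous fun z : (Λ → ℂ) × (J ⊕ GI F.w θ N → ℂ) => (z.1, z.2 ∘ Sum.inl) := by
    fun_prop
  have r : ∀ k α, α ∈ ((F.gr θ N κ).G (.inl k)).support →
      ∃ α' ∈ (F.G k).support, α'.mapDomain .inl = α := fun k α a =>
    Finset.mem_image.1 ((support_rename_of_injective Sum.inl_injective).le a)
  refine ⟨Sum.rec (fun k α a i => ?_) fun p α a i => ?_,
    Sum.rec (fun k α a β b i => ?_) fun p α a β b i => ?_, h.openU.preimage c,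
    fun t ht z hz => h.invU t ht _ hz, h.closedE.preimage c, fun t ht z hz => h.invE t ht _ hz,
    fun l y y' e => h.baseE l _ _ fun j hj => e _ (mt inl_mem_gr.1 hj),
    disjoint_compl_right_iff_subset.2 (image_mono h.zer_base.subset_compl_right), h.lcB, h.invB⟩
  · obtain ⟨α', a', rfl⟩ := r k α a
    exact (sum_mapDomain_inl _ _).trans (h.hom k α' a' i)
  · obtain ⟨β, b⟩ := support_nonempty.2 (mem_support_iff.1 a)
    rcases gr_coeff b with ⟨rfl, -⟩ | ⟨rfl, -⟩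
    · exact sum_single_one _ _
    · exact (sum_mapDomain_inl _ _).trans (p.wt i)
  · obtain ⟨α', a', rfl⟩ := r k α a
    rw [sum_mapDomain_inl]
    exact h.homS k α' a' β ((congrArg MvPolynomial.support
      (coeff_rename_mapDomain _ Sum.inl_injective (F.G k) α')).le b) i
  · rcases gr_coeff b with ⟨rfl, rfl⟩ | ⟨rfl, e⟩
    · rw [sum_single_one]
      simp
    · rw [sum_mapDomain_inl]
      exact hκ p β e i

theorem gr_weak (h : F.Weak) (hκ : ∀ p, ∀ β ∈ (κ p).support, ∀ i,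
    ∑ j, p.α j * F.wt j i + ∑ a, β a * F.wl a i = 0) : (F.gr θ N κ).Weak where
  toInv := gr_inv h.toInv hκ
  deg := Sum.rec (fun k e => h.deg k (by
      rw [rename_injective _ Sum.inl_injective ((totalDegree_eq_zero_iff_eq_C.1 e).trans
        (rename_C _ _).symm), totalDegree_C])) fun p e => by
    classical
    have := congrArg (coeff (Finsupp.single (.inr p) 1)) (totalDegree_eq_zero_iff_eq_C.1 e)
    rw [gr_G_inr, coeff_sub, coeff_X, if_pos rfl, coeff_monomial, if_neg (single_ne_mapDomain _ _), coeff_C,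
      if_neg (Finsupp.single_ne_zero.2 one_ne_zero).symm, sub_zero] at this
    exact one_ne_zero this
  freeB := h.freeB
  properB := h.properB
  cpt B' hB hc := by
    obtain ⟨C, a, b, c⟩ := h.cpt B' hB hc
    refine ⟨grf κ '' C, forall_mem_image.2 fun z hz => gr_mem'.2 ⟨a hz, fun _ => rfl⟩,
      b.image continuous_grf, fun z hz hz' => ?_⟩
    obtain ⟨u, hu, rfl⟩ := (gr_mem_grf (B := F.B) (Z := F.zer) rfl).1 hz
    exact (c u hu hz').imp fun t d => ⟨d.1, _, d.2, grf_act d.1 u⟩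
  mov_ne := h.mov_ne.elim fun _ a => ⟨_, inl_mem_gr.2 a⟩

theorem gr_good (h : F.Weak) (ha : F.Ample θ N) (h0 : 0 ≤ θ)
    (hκ : ∀ p, ∀ β ∈ (κ p).support, ∀ i,
      ∑ j, p.α j * F.wt j i + ∑ a, β a * F.wl a i = 0)
    (hκ' : ∀ l ∈ F.B, ∀ q, ∃ i, eval l (κ (q, i)) ≠ 0) : (F.gr θ N κ).Good := by
  classical
  refine (gr_weak h hκ).good (gr_ample ha) fun o z hz => ?_
  obtain ⟨a, b⟩ := gr_mem'.1 hz
  obtain ⟨α, c, d⟩ := ha.gc o a
  obtain ⟨p, e1, e⟩ : ∃ p : GI F.w θ N, p.1.1 = ({j | z.2 (.inl j) ≠ 0}, o) ∧ eval z.1 (κ p) ≠ 0 :=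
    (hκ' _ a.1 ⟨({j | z.2 (.inl j) ≠ 0}, o), Finsupp.equivFunOnFinite.symm α, fun j hj f =>
      Finset.prod_ne_zero_iff.1 d j (Finset.mem_univ _) (pow_eq_zero_iff hj |>.2 f), c⟩).elim
        fun i e => ⟨(_, i), rfl, e⟩
  refine ⟨(Finsupp.single (.inr p) 1 : _ →₀ ℕ), fun j hj => ?_, fun r =>
    (sum_single_one (Sum.inr p) _).trans (congrArg (gc θ N · r) (congrArg Prod.snd e1)), ?_⟩
  · rw [(Finsupp.single_apply_ne_zero.1 hj).1]
    exact gc_nonneg h0 N _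
  · refine Finset.prod_ne_zero_iff.2 fun j _ f => ?_
    obtain ⟨f, g⟩ := pow_eq_zero_iff'.1 f
    rw [(Finsupp.single_apply_ne_zero.1 g).1, b] at f
    exact mul_ne_zero e (Finset.prod_ne_zero_iff.2 fun j _ k => (congrArg Prod.fst e1).le
      (p.supp j (pow_eq_zero_iff'.1 k).2) (pow_eq_zero_iff'.1 k).1) f

theorem gr_jac_inl (z) (k : K) (η : J ⊕ GI F.w θ N → ℂ) : ∑ j, (F.gr θ N κ).jac z (.inl k) j * η j =
    ∑ j, F.jac (z.1, z.2 ∘ .inl) k j * η (.inl j) := by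
  simp only [jac, gr_fib_inl, sum_pderiv_rename]

theorem gr_jac_inr (z) (p : GI F.w θ N) (η : J ⊕ GI F.w θ N → ℂ) :
    ∑ j, (F.gr θ N κ).jac z (.inr p) j * η j = η (.inr p) -
      ∑ j, eval (z.2 ∘ .inl) (pderiv j (monomial p.α (eval z.1 (κ p)))) * η (.inl j) := by
  classical
  simp only [jac, gr_fib_inr, map_sub, sub_mul, Finset.sum_sub_distrib, sum_pderiv_rename]
  rw [Finset.sum_eq_single (.inr p) (fun _ _ e => by rw [pderiv_X_of_ne e.symm]; simp) (by simp),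
    pderiv_X_self, map_one, one_mul]

theorem gr_regAt {K₁ : Set K} {z} (h : F.RegAt K₁ (z.1, z.2 ∘ .inl)) :
    (F.gr θ N κ).RegAt {k | Sum.elim (· ∈ K₁) (fun _ => True) k} z := by
  refine ⟨fun c => ?_, ?_⟩
  · obtain ⟨η, a, b⟩ := h.ind (c ∘ .inl)
    exact ⟨Sum.elim η fun p => c (.inr p) +
        ∑ j, eval (z.2 ∘ .inl) (pderiv j (monomial p.α (eval z.1 (κ p)))) * η j,
      Sum.rec (fun j hj => a j (mt inl_mem_gr.2 hj)) fun p hp => (hp (inr_mem_gr p)).elim,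
      Sum.rec (fun k d => (gr_jac_inl _ _ _).trans (b k d))
        fun p _ => (gr_jac_inr _ _ _).trans (add_sub_cancel_right _ _)⟩
  · have a : ∀ (y : (Λ → ℂ) × (J ⊕ GI F.w θ N → ℂ)) k,
        (F.gr θ N κ).eqn y (.inl k) = F.eqn (y.1, y.2 ∘ .inl) k := fun y k =>
      (congrArg _ (gr_fib_inl _ _)).trans (eval_rename _ _ _)
    refine ((Continuous.tendsto (f := fun y : (Λ → ℂ) × (J ⊕ GI F.w θ N → ℂ) =>
      (y.1, y.2 ∘ Sum.inl)) (by fun_prop) z).eventually h.cut).mono fun y b c d => ?_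
    exact Sum.rec (fun k => (a y k).trans (b ⟨c.1, c.2.1, fun j hj => c.2.2 _ ⟨j, hj, rfl⟩⟩
      (fun k e => (a y k).symm.trans (d (.inl k) e)) k)) fun p => d (.inr p) trivial

theorem gr_ci (h : F.CI) : (F.gr θ N κ).CI := fun z hz =>
  (eq_univ_of_forall (s := {k | Sum.elim (· ∈ univ) (fun _ => True) k})
    (Sum.rec (fun _ => trivial) fun _ => trivial)) ▸ gr_regAt (h _ (gr_mem'.1 hz).1)

theorem gr_reg {K₀ : RD R} (h : F.Reg K₀) (hI : (F.gr θ N κ).Inv) : (F.gr θ N κ).Reg K₀ := by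
  refine h.of_proj' hI id (LinearMap.funLeft ℂ ℂ .inl)
    (fun z hz => (h.loc _ (gr_mem'.1 hz).1).elim fun _ a => ⟨_, gr_regAt a⟩)
    (fun z hz => (gr_mem'.1 hz).1) (fun z _ => ⟨fun η a => RP.mem_vert.2 ⟨fun j b =>
      (RP.mem_vert.1 a).1 _ (mt inl_mem_gr.1 b), fun k => (gr_jac_inl _ _ _).symm.trans
        ((RP.mem_vert.1 a).2 _)⟩, fun η a η' b c => ?_, fun η a => ?_⟩) fun _ _ _ _ => rfl
  · have d : ∀ j, η (.inl j) = η' (.inl j) := congrFun c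
    refine funext (Sum.rec d fun p => ?_)
    have e := (gr_jac_inr _ p _).symm.trans ((RP.mem_vert.1 a).2 _)
    have e' := (gr_jac_inr _ p _).symm.trans ((RP.mem_vert.1 b).2 _)
    simp only [d] at e
    linear_combination e - e'
  · exact ⟨Sum.elim η fun p =>
        ∑ j, eval (z.2 ∘ .inl) (pderiv j (monomial p.α (eval z.1 (κ p)))) * η j, RP.mem_vert.2
      ⟨Sum.rec (fun j hj => (RP.mem_vert.1 a).1 j (mt inl_mem_gr.2 hj))
        fun p hp => (hp (inr_mem_gr p)).elim,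
      Sum.rec (fun k => (gr_jac_inl _ _ _).trans ((RP.mem_vert.1 a).2 k))
        fun p => (gr_jac_inr _ _ _).trans (sub_self _)⟩, rfl⟩

theorem gr_deg {F : Fam S (Option Λ₀) R J K} {κ : GI F.w θ N → MvPolynomial (Option Λ₀) ℂ}
    {i : R} {b c : J} {B₀ : Set (Λ₀ → ℂ)} {Ω : Set ℂ} (h : F.Deg i b c B₀ Ω) :
    (F.gr θ N κ).Deg i (.inl b) (.inl c) B₀ Ω where
  ne := Sum.inl_injective.ne h.ne
  mov := (congrArg (fun A => (Sum.inl '' Aᶜ)ᶜ) h.mov).trans (by rw [compl_compl, image_pair])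
  zer := (congrArg (Sum.inl '' ·) h.zer).trans (image_empty _)
  wb := h.wb
  wc := h.wc
  θ := h.θ
  B := h.B
  opn := h.opn
  cvx := h.cvx
  zero := h.zero
  E := congrArg (fun A => {z : _ × (J ⊕ GI F.w θ N → ℂ) | (z.1, z.2 ∘ .inl) ∈ A}) h.E

theorem grf_evσ (σ : J → MvPolynomial J₀ (MvPolynomial Λ ℂ)) (z : (Λ → ℂ) × (J₀ → ℂ)) :
    grf κ (evσ σ z) = evσ (Sum.elim σ fun p => C (κ p) * ∏ j, σ j ^ p.α j) z :=
  Prod.ext rfl (funext (Sum.rec (fun _ => rfl) fun p => by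
    simp only [grf, evσ, evz, Sum.elim_inr, map_mul, map_C, eval_C, map_prod, map_pow]))

theorem gr_cone_pres {F₀ : Fam S Λ R₀ J₀ K₀} {B : Set (Λ → ℂ)} {Z : Set J}
    {Z' : Set (J ⊕ GI F.w θ N)} (hZ : Z' = Sum.inl '' Z)
    {σ : J → MvPolynomial J₀ (MvPolynomial Λ ℂ)} (h : ∀ z', z' ∈ (F.sub B Z).cone ↔
      ∃ t, IsUnit t ∧ ∃ z ∈ F₀.cone, z' = F.actT (1, t) (evσ σ z)) (z') :
    z' ∈ ((F.gr θ N κ).sub B Z').cone ↔ ∃ t, IsUnit t ∧ ∃ z ∈ F₀.cone, z' = (F.gr θ N κ).actT (1, t)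
      (evσ (Sum.elim σ fun p => C (κ p) * ∏ j, σ j ^ p.α j) z) := by
  refine (gr_mem_grf hZ).trans ⟨fun ⟨u, a, b⟩ => ?_, fun ⟨t, a, z, b, c⟩ => ?_⟩
  · obtain ⟨t, c, z, d, rfl⟩ := (h u).1 a
    exact ⟨t, c, z, d, by rw [b, grf_act c, grf_evσ]⟩
  · exact ⟨_, (h _).2 ⟨t, a, z, b, rfl⟩, by rw [c, grf_act a, grf_evσ]⟩

theorem gr_hom_pres {w₀ : J₀ → R₀ → ℤ} {M : R → R₀ → ℤ}
    {σ : J → MvPolynomial J₀ (MvPolynomial Λ ℂ)}
    (h : ∀ j', ∀ α ∈ (σ j').support, ∀ r, ∑ j, α j * w₀ j r = ∑ r', F.w j' r' * M r' r)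
    (p : GI F.w θ N) : ∀ α ∈ (C (κ p) * ∏ j, σ j ^ p.α j).support, ∀ r,
      ∑ j, α j * w₀ j r = ∑ r', p.c r' * M r' r := fun α hα r => by
  have e : ∀ α : J₀ →₀ ℕ, Finsupp.weight (fun j => w₀ j r) α = ∑ j, α j * w₀ j r := fun α => by
    rw [Finsupp.weight_apply, Finsupp.sum_fintype _ _ (by simp)]
    simp
  have a := (IsWeightedHomogeneous.prod Finset.univ (fun j => σ j ^ p.α j)
    (fun j => p.α j • ∑ r', F.w j r' * M r' r) (w := fun j => w₀ j r) fun j _ =>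
      IsWeightedHomogeneous.pow (fun α a => (e α).trans (h j α (mem_support_iff.2 a) r)) _).C_mul
        (κ p) (mem_support_iff.1 hα)
  rw [← e, a]
  simp only [nsmul_eq_mul, Finset.mul_sum, ← p.wt, Finset.sum_mul, mul_assoc]
  exact Finset.sum_comm

theorem gr_pres {F : Fam Empty Λ R J K} {κ : GI F.w θ N → MvPolynomial Λ ℂ}
    {F₀ : Fam Empty Λ R₀ J₀ K₀} {B : Set (Λ → ℂ)} {Z : Set J} {Z' : Set (J ⊕ GI F.w θ N)}
    (hZ : Z' = Sum.inl '' Z) {φ : J₀ → J} {s : I → J} {M : R → R₀ → ℤ}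
    {σ : J → MvPolynomial J₀ (MvPolynomial Λ ℂ)} (h : F₀.Pres (F.sub B Z) φ s M σ) :
    F₀.Pres ((F.gr θ N κ).sub B Z') (.inl ∘ φ) (.inl ∘ s) M
      (Sum.elim σ fun p => C (κ p) * ∏ j, σ j ^ p.α j) := by
  have z : ∀ {j}, Sum.inl j ∈ Z' ↔ j ∈ Z := hZ ▸ Sum.inl_injective.mem_set_image
  have r : ∀ {j}, (Sum.inl j : J ⊕ GI F.w θ N) ∈ range (.inl ∘ φ) ↔ j ∈ range φ :=
    exists_congr fun _ => Sum.inl_injective.eq_iff
  refine ⟨Sum.inl_injective.comp h.inj, h.wl, h.B, h.σ_φ, h.σ_s, Sum.rec h.hom (gr_hom_pres h.hom),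
    fun _ _ _ _ _ a => a.elim, h.lat_inj, h.lat_ker, h.lat_onto, gr_cone_pres hZ h.cone,
    fun j => (inl_mem_gr (κ := κ)).trans (h.mov j), fun j => z.trans (h.zer j), h.E,
    Sum.rec (fun j a b => (h.drop j (mt r.2 a) (mt (inl_mem_gr (κ := κ)).2 b)).imp_left z.2)
      fun p _ b => (b (inr_mem_gr (κ := κ) p)).elim, fun l hl y a b => ?_⟩
  exact (h.E' l hl (y ∘ .inl) (fun j hj => a _ (z.2 hj))
    fun i hi => b i (mt (inl_mem_gr (κ := κ)).1 hi)).trans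
      (exists_congr fun t => and_congr_right fun _ => ⟨fun c => Sum.rec (fun j d e f =>
        c j (mt r.2 d) (mt (inl_mem_gr (κ := κ)).2 e) (mt z.2 f))
        fun p _ e => (e (inr_mem_gr (κ := κ) p)).elim, fun c j d e f =>
          c (.inl j) (mt r.1 d) (mt (inl_mem_gr (κ := κ)).1 e) (mt z.1 f)⟩)

/-- the same for the families with all non-vanishing fields movable -/
theorem gr_pres_abs {F : Fam Empty Λ R J K} {κ : GI F.w θ N → MvPolynomial Λ ℂ}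
    {F₀ : Fam Empty Λ R₀ J₀ K₀} {B : Set (Λ → ℂ)} {Z : Set J}
    {Z' : Set (J ⊕ GI F.w θ N)} (hZ : Z' = Sum.inl '' Z) {φ : J₀ → J} {s : I → J} {M : R → R₀ → ℤ}
    {σ : J → MvPolynomial J₀ (MvPolynomial Λ ℂ)} (h : F₀.Pres (F.sub B Z).abs φ s M σ) :
    F₀.Pres ((F.gr θ N κ).sub B Z').abs (.inl ∘ φ) (.inl ∘ s) M
      (Sum.elim σ fun p => C (κ p) * ∏ j, σ j ^ p.α j) := by
  have z : ∀ {j}, Sum.inl j ∈ Z' ↔ j ∈ Z := hZ ▸ Sum.inl_injective.mem_set_image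
  exact ⟨Sum.inl_injective.comp h.inj, h.wl, h.B, h.σ_φ, h.σ_s, Sum.rec h.hom (gr_hom_pres h.hom),
    fun _ _ _ _ _ a => a.elim, h.lat_inj, h.lat_ker, h.lat_onto,
    gr_cone_pres (F := F.abs) hZ h.cone, fun j => (not_congr z).trans (h.mov j),
    fun j => z.trans (h.zer j), h.E, fun _ _ b => .inl (not_not.1 b), fun _ _ _ _ _ =>
      ⟨fun _ => ⟨1, isUnit_one, fun _ _ a b => (a b).elim⟩, fun _ => trivial⟩⟩

theorem gr_c1 (A) : (F.gr θ N κ).c1 A = ∑ᶠ j ∈ F.mov, (F.toWt.gr θ N).lc A (F.wt j) (F.w j) -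
    ∑ q, (F.toWt.gr θ N).lc A (F.wk q) (F.χ q) := by
  have e : (F.gr θ N κ).mov = Sum.inl '' F.mov ∪ range Sum.inr := Set.ext (Sum.rec
    (fun j => inl_mem_gr.trans (by simp)) fun p => iff_of_true (inr_mem_gr p) (.inr ⟨p, rfl⟩))
  rw [c1, e, finsum_mem_union disjoint_image_inl_range_inr
    (toFinite _) (toFinite _), finsum_mem_image Sum.inl_injective.injOn,
    finsum_mem_range Sum.inr_injective, finsum_eq_sum_of_fintype (α := GI F.w θ N),
    Fintype.sum_sum_type]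
  exact add_sub_add_right_eq_sub _ _ _

theorem abs_cone (hE : ∀ l ∈ F.B, ∀ y, (∀ j ∈ F.zer, y j = 0) → (l, y) ∈ F.E) :
    F.abs.cone = F.cone :=
  Set.ext fun _ => ⟨fun h => ⟨h.1, ⟨h.2.1.1, hE _ h.1 _ h.2.1.2.2, h.2.1.2.2⟩, h.2.2⟩,
    fun h => ⟨h.1, ⟨h.2.1.1, trivial, h.2.1.2.2⟩, h.2.2⟩⟩

end Fam

end Vale.Agent.P269
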