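import Vale.Agent.P287Q.G.Asm.Trn

/-!
# Empty complete intersections and linear equations
-/

set_option linter.unusedSectionVars false

namespace Vale.Agent.P269

open P291Z Set Topology Filter MvPolynomial Fock
open Function hiding eval

variable {R R' J J' K K' I : Type} [Fintype R] [Fintype R'] [Fintype J] [Fintype J'] [Fintype K]
  [Fintype K'] [Fintype I]

theorem evσ_C (σ : J' → MvPolynomial J ℂ) (z : (Empty → ℂ) × (J → ℂ)) :
    evσ (fun j => MvPolynomial.map C (σ j)) z = (z.1, fun j => eval z.2 (σ j)) :=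
  Prod.ext rfl (funext fun j => by simp only [evσ, evz, map_eval_map_C])

/-- A change of presentation between targets. -/
theorem Fam.Tg.pres [DecidableEq R] [DecidableEq R'] {F : Fam Empty Empty R J K}
    {F' : Fam Empty Empty R' J' K'} (hF : F.Tg) (hF' : F'.Tg) {φ : J → J'} {s : I → J'}
    {M : R' → R → ℤ} {σ : J' → MvPolynomial J ℂ} (inj : Injective φ) (σ_φ : ∀ j, σ (φ j) = X j)
    (σ_s : ∀ i, σ (s i) = 1)
    (hom : ∀ j', ∀ α ∈ (σ j').support, ∀ r, ∑ j, α j * F.w j r = ∑ r', F'.w j' r' * M r' r)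
    (lat_inj : ∀ d : R → ℤ, (∀ r', ∑ r, M r' r * d r = 0) → d = 0)
    (lat_ker : ∀ d' : R' → ℤ, (∀ i, ∑ r', F'.w (s i) r' * d' r' = 0) →
      ∃ d : R → ℤ, d' = fun r' => ∑ r, M r' r * d r)
    (lat_onto : ∀ n : I → ℤ, ∃ d' : R' → ℤ, ∀ i, ∑ r', F'.w (s i) r' * d' r' = n i)
    (cone : ∀ z', z' ∈ F'.cone ↔ ∃ t, IsUnit t ∧ ∃ z ∈ F.cone,
      z'.2 = (F'.actT (1, t) (z.1, fun j => eval z.2 (σ j))).2) :
    F.Pres F' φ s M fun j => MvPolynomial.map C (σ j) where
  inj := inj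
  wl := Subsingleton.elim _ _
  B := hF'.B.trans hF.B.symm
  σ_φ j := by rw [σ_φ, map_X]
  σ_s i := by rw [σ_s, map_one]
  hom j α hα := hom j α (support_map_subset _ _ hα)
  homS _ _ _ _ _ a := a.elim
  lat_inj := lat_inj
  lat_ker := lat_ker
  lat_onto := lat_onto
  cone z' := by
    simp only [cone, evσ_C]
    exact exists_congr fun t => and_congr_right fun _ => exists_congr fun z => and_congr_right
      fun _ => ⟨Prod.ext (Subsingleton.elim _ _), congrArg _⟩
  mov := by simp [hF.mov, hF'.mov]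
  zer := by simp [hF.zer, hF'.zer]
  E := by simp [hF.E]
  drop := by simp [hF'.mov]
  E' := by simpa [hF'.mov, hF'.E] using fun _ _ _ _ => ⟨1, isUnit_one⟩

theorem Fam.Tg.movc [DecidableEq R] {F : Fam Empty Empty R J K} (hF : F.Tg) : F.movᶜ ⊆ F.zer := by
  simp [hF.mov]

theorem card_lt_of_li {A : K → J → ℂ} (h : LinearIndependent ℂ A) {x : J → ℂ} (hx : x ≠ 0)
    (h0 : ∀ k, ∑ j, A k j * x j = 0) : Fintype.card K < Fintype.card J := by
  classical
  have h1 := (Matrix.of A).mulVecLin.finrank_range_add_finrank_ker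
  have h2 : Module.finrank ℂ (LinearMap.range (Matrix.of A).mulVecLin) = Fintype.card K :=
    LinearIndependent.rank_matrix h
  have h3 : Module.finrank ℂ (LinearMap.ker (Matrix.of A).mulVecLin) ≠ 0 := fun e =>
    hx ((Submodule.eq_bot_iff _).1 (Submodule.finrank_eq_zero.1 e) x (funext h0))
  rw [Module.finrank_fintype_fun_eq_card] at h1
  omega

variable {F : K → MvPolynomial J ℂ} {d : K → ℕ}

theorem SmCI.card_lt (h : SmCI F d) {x : J → ℂ} (hx : x ∈ (ciK F).cone) :
    Fintype.card K < Fintype.card J :=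
  card_lt_of_li (h.li x hx) hx.1 fun k => by
    have := congrArg (eval x) (h.hom k).sum_X_mul_pderiv
    simpa [mul_comm, (mem_ciK.1 hx).2 k] using this

theorem ciF_eq_empty (h : ∀ x, x ∉ (ciK F).cone) : (ciF F d).cone = ∅ :=
  eq_empty_of_forall_notMem fun _ hz => h _ (mem_ciF.1 hz)

/-- **Empty complete intersections.** -/
theorem St.vEmpty : St.VEmpty := fun N ds hN J K _ _ F d hJ hd h C i vd hs _ =>
  Fam.vir_of_empty (ciF_eq_empty fun x hx => by
    have := h.card_lt hx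
    rw [← hd, Multiset.card_map, Finset.card_val, Finset.card_univ] at hN
    omega) hs.bij.1 vd

theorem ciF_c1 (A) : (ciF F d).c1 A =
    Fintype.card J • (ciF F d).lc A 0 1 - ∑ k, (ciF F d).lc A 0 fun _ => d k := by
  rw [Fam.c1, show (ciF F d).mov = univ from rfl, finsum_mem_univ, finsum_eq_sum_of_fintype,
    ← Finset.card_univ, ← Finset.sum_const]
  simp only [Subsingleton.elim ((ciF F d).wt _) 0, Subsingleton.elim ((ciF F d).wk _) 0]
  rfl

theorem sum_eq_of_hom {f : MvPolynomial J ℂ} {n : ℕ} (h : f.IsHomogeneous n) {α : J →₀ ℕ}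
    (hα : α ∈ f.support) : ∑ j, (α j : ℤ) = n := by
  have h2 := h (mem_support_iff.1 hα)
  rw [Finsupp.weight_apply, Finsupp.sum_fintype _ _ (by simp)] at h2
  simpa using congrArg (Nat.cast : ℕ → ℤ) h2

theorem eval_aeval (σ : J' → MvPolynomial J ℂ) (y : J → ℂ) (f : MvPolynomial J' ℂ) :
    eval y (aeval σ f) = eval (fun j => eval y (σ j)) f := comp_aeval_apply σ (aeval y) f

theorem exists_lin {f : MvPolynomial J ℂ} (h : f.IsHomogeneous 1) :
    ∃ a : J → ℂ, ∑ j, a j • X j = f :=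
  (Submodule.mem_span_range_iff_exists_fun ℂ).1 (by
    rw [← homogeneousSubmodule_one_eq_span_X]; exact h)

/-- The chain rule for a linear substitution. -/
theorem pderiv_lin {σ : J' → MvPolynomial J ℂ} (hσ : ∀ j, (σ j).IsHomogeneous 1)
    (f : MvPolynomial J' ℂ) (y η : J → ℂ) : ∑ i, eval y (pderiv i (aeval σ f)) * η i =
      ∑ j, eval (fun j => eval y (σ j)) (pderiv j f) * eval η (σ j) := by
  refine (Vir.hasDerivAt_eval _ y η).unique ((Vir.hasDerivAt_eval f _ _).congr_of_eventuallyEq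
    (.of_forall fun ε => ?_))
  simp only [eval_aeval]
  refine congrArg (eval · f) (funext fun j => ?_)
  obtain ⟨a, ha⟩ := exists_lin (hσ j)
  simp [← ha, mul_add, Finset.sum_add_distrib, Finset.mul_sum, mul_left_comm]

/-- A parametrisation of a hyperplane. -/
theorem exists_hyp {a : J → ℂ} {j₀ : J} (h : a j₀ ≠ 0) :
    ∃ σ : J → MvPolynomial {j // j ≠ j₀} ℂ, (∀ j, (σ j).IsHomogeneous 1) ∧ (∀ i, σ i.1 = X i) ∧
      ∀ x : J → ℂ, ∑ j, a j * x j = 0 ↔ (fun j => eval (x ∘ Subtype.val) (σ j)) = x := by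
  classical
  refine ⟨fun j => if e : j = j₀ then ∑ i : {j // j ≠ j₀}, (-a i / a j₀) • X i else X ⟨j, e⟩,
    fun j => ?_, fun i => dif_neg i.2, fun x => ?_⟩
  · beta_reduce
    split_ifs
    · exact (homogeneousSubmodule _ ℂ 1).sum_mem fun i _ =>
        Submodule.smul_mem _ _ (isHomogeneous_X _ _)
    · exact isHomogeneous_X _ _
  · have e : ∑ j, a j * x j = 0 ↔ ∑ i : {j // j ≠ j₀}, -a i / a j₀ * x i = x j₀ := by
      rw [Fintype.sum_eq_add_sum_subtype_ne _ j₀]
      simp only [div_mul_eq_mul_div, ← Finset.sum_div, div_eq_iff h, neg_mul,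
        Finset.sum_neg_distrib]
      exact ⟨fun e => by linear_combination -e, fun e => by linear_combination -e⟩
    refine e.trans ⟨fun e => funext fun j => ?_, fun e => by simpa using congrFun e j₀⟩
    by_cases k : j = j₀
    · simpa [k] using e
    · simp [k]

theorem map_univ_cons [DecidableEq K] (d : K → ℕ) (k₀ : K) : Finset.univ.val.map d =
    d k₀ ::ₘ Finset.univ.val.map fun k : {k // k ≠ k₀} => d k := by
  have e : ∀ {α : Type} [Fintype α] (f : α → ℕ), Finset.univ.val.map f = ∑ a, {f a} := fun f => by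
    rw [Finset.sum, ← Multiset.sum_map_singleton (Multiset.map f _), Multiset.map_map]
    rfl
  rw [e, e, Fintype.sum_eq_add_sum_subtype_ne _ k₀, Multiset.singleton_add]

theorem Fam.CohIso.span {F' : K' → MvPolynomial J' ℂ} {d' : K' → ℕ} {σ g}
    (h : Fam.CohIso (ciF F d) (ciF F' d') (fun _ _ => 1) σ g) (c) :
    g c ∈ Submodule.span ℂ (range fun m : ℕ => (ciF F d).lc _ 0 1 ^ m) ↔
      c ∈ Submodule.span ℂ (range fun m : ℕ => (ciF F' d').lc _ 0 1 ^ m) := by
  have e : g ((ciF F' d').lc _ 0 1) = (ciF F d).lc _ 0 1 := by rw [h.lc]; simp [Pi.one_def]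
  rw [← e, ← Submodule.apply_mem_span_image_iff_mem_span (f := g.toLinearMap) g.injective,
    ← range_comp]
  simp only [← map_pow]
  rfl

/-- **Linear equations.** -/
theorem St.vLin (hP : St.Pres) (hS : St.SelC) (hH : St.PresH) : St.VLin := by
  classical
  intro N ds H J K _ _ F d hJ hd h C i vd hs hA
  rcases (ciK F).cone.eq_empty_or_nonempty with h0 | ⟨x₀, hx₀⟩
  · exact Fam.vir_of_empty (ciF_eq_empty fun x hx => (h0.subset hx).elim) hs.bij.1 vd
  obtain ⟨k₀, -, hk⟩ := Multiset.mem_map.1 (hd ▸ Multiset.mem_cons_self 1 ds)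
  obtain ⟨a, ha⟩ := exists_lin (hk ▸ h.hom k₀)
  obtain ⟨j₀, hj⟩ : ∃ j, a j ≠ 0 := not_forall.1 fun e => h.ne k₀ (by simp [← ha, e])
  obtain ⟨σ, hσ, hσ', hx⟩ := exists_hyp hj
  have ea : ∀ x : J → ℂ, eval x (F k₀) = ∑ j, a j * x j := fun x => by simp [← ha]
  have ev : ∀ y, (fun j => eval y (σ j)) ∘ Subtype.val = y := fun y =>
    funext fun j => by simp [hσ']
  let F₀ : {k // k ≠ k₀} → MvPolynomial {j // j ≠ j₀} ℂ := fun k => aeval σ (F k)
  let d₀ : {k // k ≠ k₀} → ℕ := fun k => d k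
  have hc : ∀ y, y ∈ (ciK F₀).cone ↔ (fun j => eval y (σ j)) ∈ (ciK F).cone := fun y => by
    refine and_congr (not_congr ⟨fun e => ?_, fun e => ?_⟩) ⟨fun e k => ?_, fun e k => ?_⟩
    · subst e
      exact (hx 0).1 (by simp)
    · rw [← ev y, e]; rfl
    · by_cases k0 : k = k₀
      · rw [k0]
        exact (ea _).trans ((hx _).2 (by rw [ev]))
      · exact (eval_aeval _ _ _).symm.trans (e ⟨k, k0⟩)
    · exact (eval_aeval _ _ _).trans (e k)
  have hc' : ∀ x ∈ (ciK F).cone, (fun j => eval (x ∘ Subtype.val) (σ j)) = x := fun x e =>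
    (hx x).1 ((ea x).symm.trans (e.2 k₀))
  have li : ∀ y ∈ (ciK F₀).cone, LinearIndependent ℂ fun k j => eval y (pderiv j (F₀ k)) :=
    fun y hy => (li_iff_surj _).2 fun c => by
      obtain ⟨η, hη⟩ := (li_iff_surj _).1 (h.li _ ((hc y).1 hy))
        fun k => if e : k = k₀ then 0 else c ⟨k, e⟩
      refine ⟨η ∘ Subtype.val, fun k => ?_⟩
      have e := (hx η).1 (by simpa [← ha, pderiv_X, Pi.single_apply] using hη k₀)
      rw [pderiv_lin hσ]
      simp only [congrFun e _, hη, dif_neg k.2]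
  have hy₀ : x₀ ∘ Subtype.val ∈ (ciK F₀).cone := (hc _).2 (by rwa [hc' _ hx₀])
  have h₀ : SmCI F₀ d₀ := ⟨fun k => by simpa only [one_mul] using (h.hom k).aeval σ hσ,
    fun k => h.pos k, fun k e => (li _ hy₀).ne_zero k (funext fun j => by simp [e]), li⟩
  have cJ : Fintype.card J = Fintype.card {j // j ≠ j₀} + 1 := by
    have := Fintype.card_pos_iff.2 ⟨j₀⟩
    simp; omega
  have cK : Fintype.card K = Fintype.card {k // k ≠ k₀} + 1 := by
    have := Fintype.card_pos_iff.2 ⟨k₀⟩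
    simp; omega
  have : Nonempty J := ⟨j₀⟩
  have : Nonempty {j // j ≠ j₀} := Fintype.card_pos_iff.1 (by omega)
  have hp : (ciF F₀ d₀).Pres (ciF F d) Subtype.val (Empty.elim : Empty → J) (fun _ _ => 1)
      fun j => MvPolynomial.map MvPolynomial.C (σ j) := by
    refine h₀.tg.pres h.tg Subtype.val_injective hσ' (fun i => i.elim) (fun j α hα r => ?_)
      (fun d e => funext fun r => by simpa using e r) (fun d _ => ⟨d, by simp⟩)
      (fun _ => ⟨0, fun i => i.elim⟩) fun z => ⟨fun hz => ⟨1, isUnit_one, (z.1, z.2 ∘ Subtype.val),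
        mem_ciF.2 ((hc _).2 ?_), ?_⟩, fun ⟨t, ht, y, hy, e⟩ => ?_⟩
    · change ∑ j, (α j : ℤ) * 1 = ∑ _ : Unit, 1 * 1
      simpa using sum_eq_of_hom (hσ j) hα
    · rw [hc' _ (mem_ciF.1 hz)]
      exact mem_ciF.1 hz
    · rw [ciF_act, hc' _ (mem_ciF.1 hz)]
      exact (one_smul _ _).symm
    · rw [mem_ciF, e, ← mem_ciF (d := d)]
      exact (ciF_inv h.hom).cone_act (Prod.isUnit_iff.2 ⟨isUnit_one, ht⟩)
        (mem_ciF.2 ((hc _).1 (mem_ciF.1 hy)))
  have hd₀ : Finset.univ.val.map d₀ = ds := by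
    rw [map_univ_cons d k₀, hk] at hd
    exact (Multiset.cons_inj_right _).1 hd
  obtain ⟨g, hg⟩ := hp.cohIso hH h₀.tg.movc h₀.nice h.nice (Fam.cp_empty _)
  refine (hp.vir_iff (i := g.toLinearMap ∘ₗ i) hP hS h₀.tg.movc (.of_abs h.tg.movc _) h₀.nice h.nice
    (Fam.cp_empty _) fun v => hg.pb _).1 (H _ _ F₀ d₀ (by omega) hd₀ h₀ C _ vd
      (hg.std (fun _ => rfl) ?_ hp.dual_surj hs) ?_)
  · rw [ciF_c1, ciF_c1, map_sub, map_nsmul, map_sum, Fintype.sum_eq_add_sum_subtype_ne _ k₀, cJ,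
      succ_nsmul]
    simp only [hg.lc, hk, Pi.one_def, Fintype.sum_unique, mul_one, Nat.cast_one]
    abel
  · rw [Adm, show Fintype.card {j // j ≠ j₀} - 1 - Fintype.card {k // k ≠ k₀} =
      Fintype.card J - 1 - Fintype.card K by omega]
    obtain ⟨pr, h1, h2, h3⟩ := hA
    refine ⟨pr, fun v => (h1 v).trans (hg.span _).symm, h2, ?_⟩
    rw [h3, hd, hd₀, hJ, show Fintype.card {j // j ≠ j₀} - 1 = N by omega, ← Multiset.singleton_add,
      add_comm _ ds]
    exact Deg.lP_one N ds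

end Vale.Agent.P269
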