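import Vale.Agent.P287Q.G.Asm.DE
import Vale.Agent.P287Q.G.Asm.Gr
import Vale.Agent.P287Q.G.Asm.QMem
import Vale.Agent.P287Q.G.Asm.PresT
import Vale.Agent.P287Q.G.Prj.Tgt

/-!
# First Chern classes and retractions
-/

set_option linter.unusedSectionVars false

namespace Vale.Agent.P269

open P291Z Set Function Topology Filter MvPolynomial Holo Mono Tq

variable {S Λ₀ R J K R₀ J₀ K₀ : Type} [Fintype S] [Fintype Λ₀] [Fintype R] [Fintype J] [Fintype K]
  [Fintype R₀] [Fintype J₀] [Fintype K₀] [DecidableEq R]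

theorem Fam.Pl.c1 {F : Fam Empty Empty R J K} (h : F.Pl) (A) [FP F.actT A] :
    F.c1 A = F.lc A 0 F.κ₁ := by
  rw [Fam.c1, h.mov, finsum_mem_univ, finsum_eq_sum_of_fintype, ← Wt.lc_sum, ← Wt.lc_sum,
    ← Wt.lc_sub]
  exact congrArg (F.lc A · _) (Subsingleton.elim _ _)

theorem κ_ciF (F : K → MvPolynomial J ℂ) (d : K → ℕ) :
    (ciF F d).κ₁ = fun _ => (Fintype.card J - ∑ k, d k : ℤ) :=
  funext fun _ => by simp [Fam.κ₁, ciF, ciK, Tgt.fam]

theorem κ_proj (F : Fam Empty Empty R J K) {r : ℕ} (a : Fin (r + 1) → R → ℤ) (θ) :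
    (F.proj a θ).κ₁ = fun o => o.elim (r + 1 : ℤ) (F.κ₁ + ∑ l, a l) :=
  funext fun o => by cases o <;> simp [Fam.κ₁, Fam.proj, sub_add_eq_add_sub]

theorem prod_zpow_comp {t : R → ℂ} (ht : ∀ i, t i ≠ 0) (M : R₀ → R → ℤ) (χ : R₀ → ℤ) :
    ∏ i₀, (∏ i, t i ^ M i₀ i) ^ χ i₀ = ∏ i, t i ^ ∑ i₀, χ i₀ * M i₀ i := by
  simp only [← Finset.prod_zpow, ← zpow_mul, zpow_sum_ne (ht _), mul_comm]
  exact Finset.prod_comm

namespace Pre

variable {P : Pre R J K}

theorem Ok.c1 (h : P.Ok) (e e' : Bool) (B Z A) [FP P.W.actT A] : ((P.fam e e').sub B Z).c1 A =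
    P.W.lc A 0 (P.up (P.lev univ).κ₁ + cond e 0 (P.W.w P.y) + cond e' 0 (P.W.w P.y')) := by
  classical
  refine (Fam.gr_c1 (F := P.quad Empty.elim Empty.elim univ P.Ω e e') (θ := P.θ₀) (N := P.N)
    (κ := 1) A).trans ?_
  rw [finsum_mem_eq_finite_toFinset_sum _ (toFinite _), ← Wt.lc_sum, ← Wt.lc_sum, ← Wt.lc_sub]
  refine congrArg₂ (P.W.lc A) (Subsingleton.elim _ _) ?_
  have a : ∑ j ∈ (toFinite ({.inr 0, .inr 1}ᶜ : Set (J ⊕ Fin 4))).toFinset, P.qw j =
      ∑ j, P.qw j := by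
    rw [← Finset.sum_compl_add_sum {.inr 0, .inr 1}, Finset.sum_pair (by simp)]
    exact (congrArg (∑ j ∈ ·, P.qw j) (by ext; simp)).trans (add_eq_left.2 (add_neg_cancel _)).symm
  refine (congrArg (· - _) a).trans (funext fun r => ?_)
  rcases r with r | _ | _ <;> cases e <;> cases e' <;>
    simp [y, y', qw, up, Fam.κ₁, Tgt.fam, h.wz, h.wz', Fin.sum_univ_four] <;> ring

theorem Ok.w_y' (h : P.Ok) : P.W.w P.y' = P.W.w P.y + P.W.w P.c + P.W.w (P.o P.z) :=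
  funext fun r => by rcases r with r | _ | _ <;> simp [y, y', c, o, qw, up, h.wz]

theorem up_mx (c : R → ℤ) (M : R → R₀ → ℤ) (r) (x u : R₀ → ℤ) :
    ∑ r', P.up c r' * Sum.elim (fun r => if r = P.η then M r - x else M r)
      (fun o => cond o (u + P.β • x) x) r' r = ∑ r', c r' * M r' r := by
  have a : ∀ r', (if r' = P.η then M r' - x else M r') r =
      M r' r - if r' = P.η then x r else 0 := fun r' => by split_ifs <;> simp
  simp [up, a, mul_sub]

theorem dn_ne_u {t : R ⊕ Bool → ℂ} (ht : IsUnit t) (r : R) : P.dn t r ≠ 0 :=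
  mul_ne_zero (isUnit_pi_iff.1 ht _) (by
    split_ifs
    exacts [isUnit_pi_iff.1 ht _, one_ne_zero])

theorem chT_up (t : (S → ℂ) × (R ⊕ Bool → ℂ)) (c : R → ℤ) :
    chT 0 (P.up c) t = ∏ r, P.dn t.2 r ^ c r := by
  have a : ∏ r, (if r = P.η then t.2 (.inr false) else 1) ^ c r = t.2 (.inr false) ^ c P.η := by
    rw [Finset.prod_eq_single P.η (fun r _ h => by rw [if_neg h, one_zpow]) (by simp), if_pos rfl]
  simp only [dn, mul_zpow, Finset.prod_mul_distrib, a]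
  simp [chT, up]

variable {A : Set (J → ℂ)} {T : Fam Empty Empty R₀ J₀ K₀} {σ M' r} (hr : P.Ret A T σ M' r)
  {ws : S → ℤ} {wl : Λ₀ → S → ℤ} {A' : Set ((Option Λ₀ → ℂ) × (P.QJ → ℂ))}
  (hA : ∀ z ∈ A', z.2 ∘ P.o ∈ A)
include hr hA

/-- the retraction is equivariant -/
theorem Ret.eqh : Eqh ((P.qW ws wl).gr P.θ₀ P.N).actT T.actT A' T.cone
    (fun t => (1, fun i₀ => ∏ i, P.dn t.2 i ^ M' i₀ i)) (P.ret r) where
  hm := by
    simp only [← chT_up]
    exact ⟨Prod.ext rfl (funext fun _ => (hm_chT _ _).one), fun a b c d => Prod.ext (one_mul _).symm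
      (funext fun _ => (hm_chT _ _).mul a b c d), fun a c => continuousAt_const.prodMk
        (continuousAt_pi.2 fun _ => (hm_chT _ _).cont a c)⟩
  maps z hz := hr.maps _ (hA z hz)
  cont := (continuous_const.prodMk (continuous_pi fun j => (MvPolynomial.continuous_eval _).comp
    (continuous_pi fun i => (continuous_apply (P.o i)).comp continuous_snd))).continuousOn
  eqv t ht z _ := Prod.ext (Subsingleton.elim _ _) (funext fun j => by
    have a := dn_ne_u (P := P) (Prod.isUnit_iff.1 ht).2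
    have b : ∀ j, ((((P.qW ws wl).gr P.θ₀ P.N).actT t z).2 ∘ P.o) j =
        (∏ i, P.dn t.2 i ^ P.w j i) * (z.2 ∘ P.o) j := fun j => congrArg (· * _) (chT_up t _)
    simp only [ret, Wt.actT_snd, chT, eval_eq', b, mul_pow, Finset.prod_mul_distrib,
      prod_pow_zpow a, prod_zpow_comp a, Finset.univ_eq_empty, Finset.prod_empty, one_mul,
      Finset.mul_sum]
    exact Finset.sum_congr rfl fun α hα => by simp only [hr.hom j α hα, mul_left_comm])

theorem Ret.pb_lc [FP ((P.qW ws wl).gr P.θ₀ P.N).actT A'] [FP T.actT T.cone] (χ : R₀ → ℤ) :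
    ((P.qW ws wl).gr P.θ₀ P.N).pb T.toWt (P.ret r) A' (T.lc T.cone 0 χ) =
      ((P.qW ws wl).gr P.θ₀ P.N).lc A' 0 (P.up fun i => ∑ i₀, χ i₀ * M' i₀ i) :=
  Wt.pb_lc (hr.eqh hA) fun t ht => by
    rw [chT_up, chT, prod_zpow_comp (dn_ne_u (Prod.isUnit_iff.1 ht).2), Finset.univ_eq_empty,
      Finset.prod_empty, one_mul]

end Pre

end Vale.Agent.P269
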