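import Vale.Agent.P287Q.G.Asm.Mon

/-!
# Transport of the series and of the Virasoro constraints along a change of presentation
-/

set_option linter.unusedSectionVars false

namespace Vale.Agent.P269

open P291Z Set Function Topology Filter MvPolynomial Fock

variable {S Λ R R' J J' K K' I : Type} [Fintype S] [Fintype Λ] [Fintype R] [Fintype R'] [Fintype J]
  [Fintype J'] [Fintype K] [Fintype K'] [Fintype I] [DecidableEq R] [DecidableEq R']
  {V : Type} [AddCommGroup V] [Module ℂ V] {p : Fock.Par ℂ V}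

namespace Fam

variable {F : Fam S Λ R J K} {F' : Fam S Λ R' J' K'} {φ : J → J'} {s : I → J'} {M : R' → R → ℤ}
  {σ : J' → MvPolynomial J (MvPolynomial Λ ℂ)} {k k' : ℕ}

section gen

variable {P : ∀ ν κ : Type, AM Λ R J ν κ → Prop} {P' : ∀ ν κ : Type, AM Λ R' J' ν κ → Prop}
  {Θ : MvPolynomial (J × ℕ) ℂ} {A : Set ((Λ → ℂ) × (J' → ℂ))}

theorem Pres.serA (hP : St.Pres) (h : F.Pres F' φ s M σ) (hz : F.movᶜ ⊆ F.zer) (hl : F'.Lnk s)
    (hF : F.Nice 0) (hF' : F'.Nice 0) (hc : F.Cp) (hk : F.Big k) (hk' : F'.Big k') (he : F.ExOk k ⟨P, Θ, univ, 1⟩)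
    (he' : F'.ExOk k' ⟨P', rename (Prod.map φ id) Θ, univ, 1⟩)
    (hs : ∀ ν κ m, m.Sol F → (P ν κ m ↔ P' ν κ (m.ext M σ))) (hA : F'.cone ⊆ A)
    {i' : V →ₗ[ℂ] H (F'.X A)} {i : V →ₗ[ℂ] H (F.X F.cone)}
    (hi : ∀ v, i v = F.pb F'.toWt (evσ σ) _ (i' v)) :
    (∀ d, F'.serA k' ⟨P', rename (Prod.map φ id) Θ, univ, 1⟩ p i' (fun r' => ∑ r, M r' r * d r) =
      F.serA k ⟨P, Θ, univ, 1⟩ p i d) ∧ ∀ d', (∀ d : R → ℤ, d' ≠ fun r' => ∑ r, M r' r * d r) →
      F'.serA k' ⟨P', rename (Prod.map φ id) Θ, univ, 1⟩ p i' d' = 0 := by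
  have H := hP F F' φ s M σ k k' P P' Θ h hz hl hF hF' hc hk hk' he he' hs hA
  refine ⟨fun d => funext fun j => serA_eq fun l₁ l₂ => ?_,
    fun d' hd => funext fun j => serA_eq_zero fun l₁ l₂ => ?_⟩
  · rw [(H j _ l₂).1, map_map_id i' _ i hi]
  · rw [(H j l₁ l₂).2 d' hd]

omit [DecidableEq R] [DecidableEq R'] in
theorem ex0_eq (F' : Fam S Λ R' J' K') (φ : J → J') :
    F'.ex0 = ⟨fun _ _ _ => True, rename (Prod.map φ id) 1, univ, 1⟩ := by
  rw [map_one]; rfl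

theorem Pres.serA0 (hP : St.Pres) (hS : St.SelC) (h : F.Pres F' φ s M σ) (hz : F.movᶜ ⊆ F.zer)
    (hl : F'.Lnk s) (hF : F.Nice 0) (hF' : F'.Nice 0) (hc : F.Cp) (hk : F.Big k) (hk' : F'.Big k') (hA : F'.cone ⊆ A)
    {i' : V →ₗ[ℂ] H (F'.X A)} {i : V →ₗ[ℂ] H (F.X F.cone)}
    (hi : ∀ v, i v = F.pb F'.toWt (evσ σ) _ (i' v)) :
    (∀ d, F'.serA k' F'.ex0 p i' (fun r' => ∑ r, M r' r * d r) = F.serA k F.ex0 p i d) ∧
      ∀ d', (∀ d : R → ℤ, d' ≠ fun r' => ∑ r, M r' r * d r) → F'.serA k' F'.ex0 p i' d' = 0 := by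
  have he' := exOk0 hS hF'.toGood hk'
  rw [ex0_eq F' φ] at he' ⊢
  exact h.serA hP hz hl hF hF' hc hk hk' (exOk0 hS hF.toGood hk) he' (fun _ _ _ _ => Iff.rfl) hA hi

end gen

variable {C : Deg.Coh} {i' : C.H →ₗ[ℂ] H (F'.X F'.cone)} {i : C.H →ₗ[ℂ] H (F.X F.cone)}
  {vd : VD C.fr}

/-- **The Virasoro constraints do not depend on the presentation.** -/
theorem Pres.vir_iff (hP : St.Pres) (hS : St.SelC) (h : F.Pres F' φ s M σ) (hz : F.movᶜ ⊆ F.zer)
    (hl : F'.Lnk s) (hF : F.Nice 0) (hF' : F'.Nice 0) (hc : F.Cp) (hi : ∀ v, i v = F.pb F'.toWt (evσ σ) _ (i' v)) :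
    F.Vir C i vd ↔ F'.Vir C i' vd := by
  refine ⟨fun H k' hk' d' => ?_, fun H k hk d => ?_⟩
  · obtain ⟨k, hk⟩ := hF.exists_big
    have e := h.serA0 (p := C.p) hP hS hz hl hF hF' hc hk hk' subset_rfl hi
    unfold ser0
    by_cases hd : ∃ d : R → ℤ, d' = fun r' => ∑ r, M r' r * d r
    · obtain ⟨d, rfl⟩ := hd
      rw [e.1]
      exact H k hk d
    · rw [e.2 d' (not_exists.1 hd)]
      exact virC_zero
  · obtain ⟨k', hk'⟩ := hF'.exists_big
    unfold ser0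
    rw [← (h.serA0 (p := C.p) hP hS hz hl hF hF' hc hk hk' subset_rfl hi).1]
    exact H k' hk' _

/-- From the constraints degree by degree to all constraints, for Picard rank one. -/
theorem Pres.vir_of_virD {F : Fam S Λ Unit J K} {M : R' → Unit → ℤ} (hP : St.Pres) (hS : St.SelC)
    (h : F.Pres F' φ s M σ) (hz : F.movᶜ ⊆ F.zer) (hl : F'.Lnk s) (hF : F.Nice 0) (hF' : F'.Nice 0)
    (hc : F.Cp) (hk' : F'.Big k')
    {A : Set _} (hA : F'.cone ⊆ A) {i' : C.H →ₗ[ℂ] H (F'.X A)} {i : C.H →ₗ[ℂ] H (F.X F.cone)}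
    (hi : ∀ v, i v = F.pb F'.toWt (evσ σ) _ (i' v)) {g : Deg.Grd (R' → ℤ)}
    (hg : g.deg (fun r' => M r' ()) ≠ 0) (H : Deg.VirD g vd (F'.serA k' F'.ex0 C.p i')) :
    F.Vir C i vd := fun k hk d => by
  have e := h.serA0 (p := C.p) hP hS hz hl hF hF' hc hk hk' hA hi
  unfold ser0
  rw [← e.1]
  refine virC_of_virD (fun β β' h1 h2 h3 => ?_) H _
  obtain ⟨a, rfl⟩ := not_forall_not.1 fun k => h1 (e.2 β k)
  obtain ⟨a', rfl⟩ := not_forall_not.1 fun k => h2 (e.2 β' k)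
  have h4 : ∀ a : Unit → ℤ, (fun r' => ∑ r, M r' r * a r) = a () • fun r' => M r' () := fun a =>
    funext fun r' => by simp [mul_comm]
  rw [h4, h4, map_zsmul, map_zsmul, smul_eq_mul, smul_eq_mul] at h3
  rw [h4, h4, mul_right_cancel₀ hg h3]

omit [DecidableEq R] [DecidableEq R'] in
/-- Every character of the small torus comes from a character of the large torus. -/
theorem Pres.dual_surj (h : F.Pres F' φ s M σ) (χ : R → ℤ) :
    ∃ χ' : R' → ℤ, χ = fun r => ∑ r', χ' r' * M r' r := by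
  classical
  let f := (Matrix.of M).mulVecLin
  let w := (Matrix.of fun i => F'.w (s i)).mulVecLin
  have hf : Injective f := (injective_iff_map_eq_zero f).2 fun d hd => h.lat_inj d (congrFun hd)
  have hw : Surjective w := fun n => (h.lat_onto n).imp fun _ e => funext e
  have hx : Function.Exact f w := fun d' => ⟨fun e => (h.lat_ker d' (congrFun e)).imp
    fun _ e => e.symm, by
      rintro ⟨d, rfl⟩
      funext i
      have : ∀ r, ∑ r', F'.w (s i) r' * M r' r = 0 := fun r => by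
        rw [← h.hom (s i) 0 (by simp [h.σ_s]) r]; simp
      change ∑ r', F'.w (s i) r' * ∑ r, M r' r * d r = 0
      simp only [Finset.mul_sum, ← mul_assoc]
      rw [Finset.sum_comm]
      simp only [← Finset.sum_mul, this, zero_mul, Finset.sum_const_zero]⟩
  obtain ⟨l, hl⟩ := ((hx.split_tfae hf hw).out 0 1).1 (Module.projective_lifting_property w .id hw)
  refine ⟨fun r' => ∑ r, χ r * l (Pi.single r' 1) r, funext fun r => ?_⟩
  have e : ∑ r', M r' r • l (Pi.single r' 1) = Pi.single r 1 := by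
    rw [← LinearMap.id_apply (R := ℤ) (Pi.single r 1), ← hl, LinearMap.comp_apply]
    simp only [← map_smul, ← map_sum]
    exact congrArg l (funext fun r' => by simp [f, Pi.single_apply])
  have e' := fun q => congrFun e q
  simp only [Finset.sum_apply, Pi.smul_apply, smul_eq_mul] at e'
  simp only [Finset.sum_mul]
  rw [Finset.sum_comm]
  simp only [mul_assoc, ← Finset.mul_sum, mul_comm (l _ _), e']
  simp [Pi.single_apply]

variable (F F' M σ) in
/-- The isomorphism of cohomology rings given by a change of presentation. -/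
structure CohIso (g : H (F'.X F'.cone) ≃ₐ[ℂ] H (F.X F.cone)) : Prop where
  pb : ∀ c, g c = F.pb F'.toWt (evσ σ) _ c
  int : ∀ c, F.intX _ (g c) = F'.intX _ c
  deg : ∀ m c, H.IsDeg m (g c) ↔ H.IsDeg m c
  lc : ∀ ψ χ, g (F'.lc _ ψ χ) = F.lc _ ψ fun r => ∑ r', χ r' * M r' r

theorem Pres.cohIso (hH : St.PresH) (h : F.Pres F' φ s M σ) (hz : F.movᶜ ⊆ F.zer) (hF : F.Nice 0)
    (hF' : F'.Nice 0) (hc : F.Cp) : ∃ g, CohIso F F' M σ g := by
  obtain ⟨g, h1, h2, h3, h4⟩ := hH F F' φ s M σ h hz hF hF' hc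
  exact ⟨g, h1, h2, h3, h4⟩

namespace CohIso

variable {g : H (F'.X F'.cone) ≃ₐ[ℂ] H (F.X F.cone)} (h : CohIso F F' M σ g)
include h
omit [DecidableEq R] [DecidableEq R']

theorem ev : IsEv (parH _) (parH _) g.toLinearMap := isEv_parH fun m c => (h.deg m c).2

theorem isCoh_iff (hi : ∀ v, i v = g (i' v)) : F.IsCoh C i ↔ F'.IsCoh C i' := by
  have e : (i : C.H → _) = g ∘ i' := funext hi
  refine ⟨fun H => ⟨(g.bijective.of_comp_iff' _).1 (e ▸ H.bij), fun v => g.injective ?_,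
    fun a b => by rw [H.η, hi, hi, ← map_mul, h.int], g.injective ?_⟩,
    fun H => ⟨e ▸ g.bijective.comp H.bij, fun v => ?_,
      fun a b => by rw [H.η, hi, hi, ← map_mul g, h.int], by rw [hi, H.one, map_one]⟩⟩
  · rw [← hi, ← H.ev, hi]
    exact (h.ev _).symm
  · rw [← hi, H.one, map_one]
  · rw [hi, hi, ← H.ev]
    exact h.ev _

theorem std_of (hi : ∀ v, i v = g (i' v)) (hc : g (F'.c1 _) = F.c1 _) (H : F.Std C i vd) :
    F'.Std C i' vd :=
  ⟨(h.isCoh_iff hi).1 H.toIsCoh, fun v => g.injective (by rw [map_mul, hc, ← hi, ← hi, H.ρ]),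
    fun m v hv => by
      rw [← h.deg, ← hi] at hv ⊢
      exact H.deg m v hv,
    fun χ v v' e => g.injective (by
      rw [map_add, map_mul, h.lc, ← hi, ← hi, ← hi]
      exact H.lc _ v v' (by rw [hi, e, map_mul, h.lc, ← hi]))⟩

theorem std (hi : ∀ v, i v = g (i' v)) (hc : g (F'.c1 _) = F.c1 _)
    (hM : ∀ χ : R → ℤ, ∃ χ' : R' → ℤ, χ = fun r => ∑ r', χ' r' * M r' r) (H : F'.Std C i' vd) :
    F.Std C i vd :=
  ⟨(h.isCoh_iff hi).2 H.toIsCoh, fun v => by rw [hi, hi, H.ρ, map_mul, hc],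
    fun m v hv => by
      rw [hi, h.deg] at hv ⊢
      exact H.deg m v hv,
    fun χ v v' e => by
      obtain ⟨χ, rfl⟩ := hM χ
      rw [← h.lc, hi, hi, ← map_mul] at e
      rw [← h.lc, hi, hi, hi, H.lc χ v v' (g.injective e), map_add, map_mul]⟩

end CohIso

end Fam

end Vale.Agent.P269
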